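import Vale.Agent.P167.H167.Pc
import Vale.Agent.P167.CA.Defs
import Vale.Agent.P167.E2.Pol

/-!
# P167, block EQUI: the geometric hypotheses for enlarged lattice polygons
-/

namespace Vale.Agent.P167.H436

open Finset
open Vale.Agent.P167.BR Vale.Agent.P167.H167

/-! ### The cells enclosed by a polygon are connected -/

section conn

open Vale.Agent.P167.E6 Vale.Agent.P167.E2

variable {l : ℕ} {p : ZMod l → ℤ × ℤ} {S : Finset (ℤ × ℤ)}

/-- Adjacent cells of `S`. -/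
def Adj (S : Finset (ℤ × ℤ)) (a b : ℤ × ℤ) : Prop :=
  a ∈ S ∧ b ∈ S ∧ (b = a + (1, 0) ∨ a = b + (1, 0) ∨ b = a + (0, 1) ∨ a = b + (0, 1))

theorem Adj.symm {a b : ℤ × ℤ} (h : Adj S a b) : Adj S b a := by
  obtain ⟨h1, h2, h3⟩ := h
  exact ⟨h2, h1, by tauto⟩

theorem adj_face {v : ℤ × ℤ} {r : Fin 4} (h1 : face v r ∈ S) (h2 : face v (r + 1) ∈ S) :
    Adj S (face v r) (face v (r + 1)) := by
  refine ⟨h1, h2, ?_⟩
  obtain ⟨a, b⟩ := v
  clear h1 h2
  fin_cases r <;> simp [face, Prod.ext_iff]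

/-- The left face of the `i`-th edge. -/
noncomputable def lf (p : ZMod l → ℤ × ℤ) (i : ZMod l) : ℤ × ℤ := face (p i) (ro p i)

theorem block_aux2 : ∀ (b0 b1 b2 b3 c0 c1 c2 c3 : Bool) (a : Fin 4),
    (∀ r : Fin 4, (![b0, b1, b2, b3] r = true ∧ ![b0, b1, b2, b3] (r - 1) = false) ↔ r = a) →
    (∀ r : Fin 4, ![b0, b1, b2, b3] r = true → ![b0, b1, b2, b3] (r + 1) = true →
      ![c0, c1, c2, c3] r = ![c0, c1, c2, c3] (r + 1)) →
    ∀ s t : Fin 4, ![b0, b1, b2, b3] s = true → ![b0, b1, b2, b3] t = true →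
      ![c0, c1, c2, c3] s = ![c0, c1, c2, c3] t := by
  decide

/-- A property of the cells which is the same for adjacent cells is the same for all cells enclosed
by a polygon. -/
theorem int_const (hp : IsPolygon p) (hS : Encloses p S) (h : ℤ × ℤ → Bool)
    (hj : ∀ a b, Adj S a b → h a = h b) {F G : ℤ × ℤ} (hF : F ∈ S) (hG : G ∈ S) : h F = h G := by
  classical
  have hn : NeZero l := ⟨by have := hp.1; omega⟩
  have step : ∀ i : ZMod l, h (lf p (i + 1)) = h (lf p i) := by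
    intro i
    have h1 := enc_in hp hS (i := i + 1)
    have e1 : face (p (i + 1)) (ri p (i + 1) - 1) = lf p i := by
      have h := ro_spec hp i
      rw [ri, h, add_sub_cancel_right]
      have : ro p i + 2 - 1 = ro p i + 1 := by
        generalize ro p i = r
        revert r
        decide
      rw [this, face_left, lf]
    have h2 := block_aux2 (decide (face (p (i + 1)) 0 ∈ S)) (decide (face (p (i + 1)) 1 ∈ S))
      (decide (face (p (i + 1)) 2 ∈ S)) (decide (face (p (i + 1)) 3 ∈ S))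
      (h (face (p (i + 1)) 0)) (h (face (p (i + 1)) 1)) (h (face (p (i + 1)) 2))
      (h (face (p (i + 1)) 3)) (ro p (i + 1))
    have e : ∀ r : Fin 4, ![decide (face (p (i + 1)) 0 ∈ S), decide (face (p (i + 1)) 1 ∈ S),
        decide (face (p (i + 1)) 2 ∈ S), decide (face (p (i + 1)) 3 ∈ S)] r =
        decide (face (p (i + 1)) r ∈ S) := by
      refine forall4 ?_ ?_ ?_ ?_ <;> rfl
    have e' : ∀ r : Fin 4, ![h (face (p (i + 1)) 0), h (face (p (i + 1)) 1),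
        h (face (p (i + 1)) 2), h (face (p (i + 1)) 3)] r = h (face (p (i + 1)) r) := by
      refine forall4 ?_ ?_ ?_ ?_ <;> rfl
    simp only [e, e', decide_eq_true_eq, decide_eq_false_iff_not] at h2
    have h3 := h2 (fun r => enc_iff hp hS) (fun r h4 h5 => hj _ _ (adj_face h4 h5))
      (ro p (i + 1)) (ri p (i + 1) - 1) (enc_out hp hS).1 h1.2
    rw [e1] at h3
    exact h3
  have all : ∀ t : ℕ, h (lf p (t : ZMod l)) = h (lf p 0) := by
    intro t
    induction t with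
    | zero => simp
    | succ t ih =>
      rw [← ih]
      push_cast
      exact step _
  have e : ∀ i : ZMod l, h (lf p i) = h (lf p 0) := by
    intro i
    have := all i.val
    rwa [ZMod.natCast_zmod_val] at this
  -- every class of cells touches the boundary
  have key : ∀ F ∈ S, h F = h (lf p 0) := by
    intro F hF
    set T : Finset (ℤ × ℤ) := S.filter fun a => h a = h F with hT
    obtain ⟨a, ha, hmax⟩ := Finset.exists_max_image T (fun a => a.1)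
      ⟨F, Finset.mem_filter.2 ⟨hF, rfl⟩⟩
    obtain ⟨haS, haF⟩ := Finset.mem_filter.1 ha
    have h1 : a + (1, 0) ∉ S := by
      intro hb
      have h2 : h (a + (1, 0)) = h F := by
        rw [← haF]
        exact (hj _ _ ⟨haS, hb, Or.inl rfl⟩).symm
      have h3 := hmax _ (Finset.mem_filter.2 ⟨hb, h2⟩)
      simp at h3
    have h4 : face (a + (1, 0)) 1 = a := by
      ext <;> simp [face]
    have h5 : face (a + (1, 0)) (1 - 1) = a + (1, 0) := by
      ext <;> simp [face]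
    obtain ⟨i, hi1, hi2⟩ := (hS (a + (1, 0)) 1).2 ⟨by rw [h4]; exact haS, by rw [h5]; exact h1⟩
    rw [← hi1] at hi2
    have h6 := ro_unique hp hi2
    have h7 : lf p i = a := by rw [lf, ← h6, hi1, h4]
    rw [← haF, ← h7, e i]
  rw [key F hF, key G hG]

/-- The cells enclosed by a polygon are connected. -/
theorem cells_conn (hp : IsPolygon p) (hS : Encloses p S) {F G : ℤ × ℤ} (hF : F ∈ S)
    (hG : G ∈ S) : Relation.ReflTransGen (Adj S) F G := by
  classical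
  have h := int_const hp hS (fun a => decide (Relation.ReflTransGen (Adj S) F a))
    (fun a b hab => by
      have : Relation.ReflTransGen (Adj S) F a ↔ Relation.ReflTransGen (Adj S) F b :=
        ⟨fun h => h.tail hab, fun h => h.tail hab.symm⟩
      simp [this]) hF hG
  have h1 : (decide (Relation.ReflTransGen (Adj S) F F)) = true := by
    simp [Relation.ReflTransGen.refl]
  rw [h1] at h
  exact of_decide_eq_true h.symm

end conn

/-! ### Steps -/

theorem nm_hdv_ls (e : Ed) : nm (hdv e - ls e) ≤ 1 := by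
  rcases e with ⟨x, y⟩ | ⟨x, y⟩ <;> simp only [hdv, ls, H45.nm_le] <;> split_ifs <;>
    simp

variable {D : Finset (ℤ × ℤ)} {P : Ed → Prop}

theorem St.symm {a b : ℤ × ℤ} (h : St D P a b) : St D P b a := by
  obtain ⟨e, he, hP, h⟩ := h
  exact ⟨e, he, hP, by tauto⟩

theorem st_h {i j : ℤ} (h : (i, j) ∈ D ∨ (i, j - 1) ∈ D) (hP : P (Sum.inr (i, j - 1))) :
    St D P (i, j) (i + 1, j) := by
  refine ⟨Sum.inr (i, j - 1), ?_, hP, ?_⟩
  · simp only [eds, Finset.mem_biUnion, Finset.mem_insert, Finset.mem_singleton]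
    rcases h with h | h
    · exact ⟨_, h, by simp⟩
    · exact ⟨_, h, by simp⟩
  · simp only [ls, rs]
    split_ifs <;> simp

theorem st_v {i j : ℤ} (h : (i, j) ∈ D ∨ (i - 1, j) ∈ D) (hP : P (Sum.inl (i - 1, j))) :
    St D P (i, j) (i, j + 1) := by
  refine ⟨Sum.inl (i - 1, j), ?_, hP, ?_⟩
  · simp only [eds, Finset.mem_biUnion, Finset.mem_insert, Finset.mem_singleton]
    rcases h with h | h
    · exact ⟨_, h, by simp⟩
    · exact ⟨_, h, by simp⟩
  · simp only [ls, rs]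
    split_ifs <;> simp

/-! ### The enlarged domain -/

/-- The site `z` is in the closed `n`-cell `v`. -/
def InC (n : ℤ) (v z : ℤ × ℤ) : Prop :=
  n * v.1 ≤ z.1 ∧ z.1 ≤ n * v.1 + n ∧ n * v.2 ≤ z.2 ∧ z.2 ≤ n * v.2 + n

variable {Q : Finset (ℤ × ℤ)} {n : ℕ}

theorem mem_enl {w : ℤ × ℤ} : w ∈ CA.enl Q n ↔ ∃ v ∈ Q, n * v.1 ≤ w.1 ∧ w.1 < n * v.1 + n ∧
    n * v.2 ≤ w.2 ∧ w.2 < n * v.2 + n := by
  simp only [CA.enl, Finset.mem_biUnion, Finset.mem_image, Finset.mem_product, Finset.mem_range]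
  constructor
  · rintro ⟨v, hv, ⟨i, j⟩, ⟨hi, hj⟩, rfl⟩
    refine ⟨v, hv, ?_⟩
    dsimp only at *
    omega
  · rintro ⟨v, hv, h1, h2, h3, h4⟩
    refine ⟨v, hv, ((w.1 - n * v.1).toNat, (w.2 - n * v.2).toNat), ⟨?_, ?_⟩, ?_⟩
    · dsimp only; omega
    · dsimp only; omega
    · ext
      · dsimp only; omega
      · dsimp only; omega

/-- A square of the enlargement is in one cell only. -/
theorem cell_unique {v v' w : ℤ × ℤ} (h : n * v.1 ≤ w.1 ∧ w.1 < n * v.1 + n ∧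
    n * v.2 ≤ w.2 ∧ w.2 < n * v.2 + n) (h' : n * v'.1 ≤ w.1 ∧ w.1 < n * v'.1 + n ∧
    n * v'.2 ≤ w.2 ∧ w.2 < n * v'.2 + n) : v = v' := by
  have hn : (0 : ℤ) < n := by omega
  have key : ∀ a b x : ℤ, n * a ≤ x → x < n * a + n → n * b ≤ x → x < n * b + n → a = b := by
    intro a b x h1 h2 h3 h4
    have h5 : n * a < n * (b + 1) := by rw [mul_add, mul_one]; omega
    have h6 : n * b < n * (a + 1) := by rw [mul_add, mul_one]; omega
    have h7 := lt_of_mul_lt_mul_left h5 hn.le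
    have h8 := lt_of_mul_lt_mul_left h6 hn.le
    omega
  exact Prod.ext (key _ _ _ h.1 h.2.1 h'.1 h'.2.1)
    (key _ _ _ h.2.2.1 h.2.2.2 h'.2.2.1 h'.2.2.2)

theorem mem_sites_enl (hn : 0 < n) {z : ℤ × ℤ} : z ∈ sites (CA.enl Q n) ↔
    ∃ v ∈ Q, InC n v z := by
  simp only [sites, Finset.mem_biUnion, Finset.mem_insert, Finset.mem_singleton, mem_enl, InC]
  constructor
  · rintro ⟨w, ⟨v, hv, h1, h2, h3, h4⟩, h⟩
    refine ⟨v, hv, ?_⟩
    rcases h with rfl | rfl | rfl | rfl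
    · omega
    · dsimp only; omega
    · dsimp only; omega
    · dsimp only; omega
  · rintro ⟨v, hv, h1, h2, h3, h4⟩
    by_cases h5 : z.1 < n * v.1 + n <;> by_cases h6 : z.2 < n * v.2 + n
    · exact ⟨z, ⟨v, hv, h1, h5, h3, h6⟩, Or.inl rfl⟩
    · refine ⟨(z.1, z.2 - 1), ⟨v, hv, ?_⟩, Or.inr (Or.inr (Or.inl ?_))⟩
      · dsimp only; omega
      · ext <;> simp
    · refine ⟨(z.1 - 1, z.2), ⟨v, hv, ?_⟩, Or.inr (Or.inl ?_)⟩
      · dsimp only; omega
      · ext <;> simp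
    · refine ⟨(z.1 - 1, z.2 - 1), ⟨v, hv, ?_⟩, Or.inr (Or.inr (Or.inr ?_))⟩
      · dsimp only; omega
      · ext <;> simp

/-- Paths whose sites have the property `G`. -/
def Jg (D : Finset (ℤ × ℤ)) (G : ℤ × ℤ → Prop) : ℤ × ℤ → ℤ × ℤ → Prop :=
  Jn D fun e => G (ls e) ∧ G (rs e)

theorem lr_h (i j : ℤ) : (ls (Sum.inr (i, j - 1)) = (i, j) ∧ rs (Sum.inr (i, j - 1)) = (i + 1, j)) ∨
    (ls (Sum.inr (i, j - 1)) = (i + 1, j) ∧ rs (Sum.inr (i, j - 1)) = (i, j)) := by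
  simp only [ls, rs]
  split_ifs <;> simp

theorem lr_v (i j : ℤ) : (ls (Sum.inl (i - 1, j)) = (i, j) ∧ rs (Sum.inl (i - 1, j)) = (i, j + 1)) ∨
    (ls (Sum.inl (i - 1, j)) = (i, j + 1) ∧ rs (Sum.inl (i - 1, j)) = (i, j)) := by
  simp only [ls, rs]
  split_ifs <;> simp

theorem row_le {v : ℤ × ℤ} (hv : v ∈ Q) {G : ℤ × ℤ → Prop} {j : ℤ} (hj : n * v.2 ≤ j)
    (hj' : j ≤ n * v.2 + n) (k : ℕ) : ∀ i : ℤ, n * v.1 ≤ i → i + k ≤ n * v.1 + n →
    (∀ t : ℤ, i ≤ t → t ≤ i + k → G (t, j)) → Jg (CA.enl Q n) G (i, j) (i + k, j) := by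
  induction k with
  | zero => intro i _ _ _; simp only [Nat.cast_zero, add_zero]; exact Relation.ReflTransGen.refl
  | succ k ih =>
    intro i h1 h2 hG
    push_cast at h2 hG ⊢
    have h3 := ih i h1 (by omega) fun t h3 h4 => hG t h3 (by omega)
    rw [← add_assoc]
    refine Relation.ReflTransGen.tail h3 (st_h ?_ ?_)
    · by_cases h : j < n * v.2 + n
      · left
        rw [mem_enl]
        refine ⟨v, hv, ?_⟩
        dsimp only
        omega
      · right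
        rw [mem_enl]
        refine ⟨v, hv, ?_⟩
        dsimp only
        omega
    · rcases lr_h (i + k) j with h | h <;> rw [h.1, h.2]
      · exact ⟨hG _ (by omega) (by omega), hG _ (by omega) (by omega)⟩
      · exact ⟨hG _ (by omega) (by omega), hG _ (by omega) (by omega)⟩

theorem col_le {v : ℤ × ℤ} (hv : v ∈ Q) {G : ℤ × ℤ → Prop} {i : ℤ} (hi : n * v.1 ≤ i)
    (hi' : i ≤ n * v.1 + n) (k : ℕ) : ∀ j : ℤ, n * v.2 ≤ j → j + k ≤ n * v.2 + n →
    (∀ t : ℤ, j ≤ t → t ≤ j + k → G (i, t)) → Jg (CA.enl Q n) G (i, j) (i, j + k) := by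
  induction k with
  | zero => intro j _ _ _; simp only [Nat.cast_zero, add_zero]; exact Relation.ReflTransGen.refl
  | succ k ih =>
    intro j h1 h2 hG
    push_cast at h2 hG ⊢
    have h3 := ih j h1 (by omega) fun t h3 h4 => hG t h3 (by omega)
    rw [← add_assoc]
    refine Relation.ReflTransGen.tail h3 (st_v ?_ ?_)
    · by_cases h : i < n * v.1 + n
      · left
        rw [mem_enl]
        refine ⟨v, hv, ?_⟩
        dsimp only
        omega
      · right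
        rw [mem_enl]
        refine ⟨v, hv, ?_⟩
        dsimp only
        omega
    · rcases lr_v i (j + k) with h | h <;> rw [h.1, h.2]
      · exact ⟨hG _ (by omega) (by omega), hG _ (by omega) (by omega)⟩
      · exact ⟨hG _ (by omega) (by omega), hG _ (by omega) (by omega)⟩

/-- Rows of a cell. -/
theorem row {v : ℤ × ℤ} (hv : v ∈ Q) {G : ℤ × ℤ → Prop} {i i' j : ℤ} (h : InC n v (i, j))
    (h' : InC n v (i', j)) (hG : ∀ t, min i i' ≤ t → t ≤ max i i' → G (t, j)) :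
    Jg (CA.enl Q n) G (i, j) (i', j) := by
  obtain ⟨a1, a2, a3, a4⟩ := h
  obtain ⟨b1, b2, b3, b4⟩ := h'
  dsimp only at *
  rcases le_total i i' with hi | hi
  · have h3 := row_le hv a3 a4 (i' - i).toNat i a1 (by omega) (G := G) (fun t h1 h2 => hG t
      (by omega) (by omega))
    rwa [Int.toNat_of_nonneg (by omega), add_sub_cancel] at h3
  · have h3 := row_le hv a3 a4 (i - i').toNat i' b1 (by omega) (G := G) (fun t h1 h2 => hG t
      (by omega) (by omega))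
    rw [Int.toNat_of_nonneg (by omega), add_sub_cancel] at h3
    exact Jn.symm h3

/-- Columns of a cell. -/
theorem col {v : ℤ × ℤ} (hv : v ∈ Q) {G : ℤ × ℤ → Prop} {i j j' : ℤ} (h : InC n v (i, j))
    (h' : InC n v (i, j')) (hG : ∀ t, min j j' ≤ t → t ≤ max j j' → G (i, t)) :
    Jg (CA.enl Q n) G (i, j) (i, j') := by
  obtain ⟨a1, a2, a3, a4⟩ := h
  obtain ⟨b1, b2, b3, b4⟩ := h'
  dsimp only at *
  rcases le_total j j' with hi | hi
  · have h3 := col_le hv a1 a2 (j' - j).toNat j a3 (by omega) (G := G) (fun t h1 h2 => hG t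
      (by omega) (by omega))
    rwa [Int.toNat_of_nonneg (by omega), add_sub_cancel] at h3
  · have h3 := col_le hv a1 a2 (j - j').toNat j' b3 (by omega) (G := G) (fun t h1 h2 => hG t
      (by omega) (by omega))
    rw [Int.toNat_of_nonneg (by omega), add_sub_cancel] at h3
    exact Jn.symm h3

/-- Two sites of a cell are joined inside their rectangle. -/
theorem rect {v z w : ℤ × ℤ} (hv : v ∈ Q) {G : ℤ × ℤ → Prop} (h : InC n v z) (h' : InC n v w)
    (hG : ∀ u : ℤ × ℤ, min z.1 w.1 ≤ u.1 → u.1 ≤ max z.1 w.1 → min z.2 w.2 ≤ u.2 →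
      u.2 ≤ max z.2 w.2 → G u) : Jg (CA.enl Q n) G z w := by
  obtain ⟨a1, a2, a3, a4⟩ := h
  obtain ⟨b1, b2, b3, b4⟩ := h'
  have h1 : Jg (CA.enl Q n) G (z.1, z.2) (w.1, z.2) :=
    row hv ⟨a1, a2, a3, a4⟩ ⟨b1, b2, a3, a4⟩ fun t h1 h2 => hG _ h1 h2 (by simp) (by simp)
  have h2 : Jg (CA.enl Q n) G (w.1, z.2) (w.1, w.2) :=
    col hv ⟨b1, b2, a3, a4⟩ ⟨b1, b2, b3, b4⟩ fun t h1 h2 => hG _ (by simp) (by simp) h1 h2
  exact h1.trans h2

/-! ### Far sites -/

/-- The sites off a box. -/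
def Off (x : ℤ × ℤ) (ρ : ℤ) (z : ℤ × ℤ) : Prop := ρ < nm (z - x)

theorem off_iff {x z : ℤ × ℤ} {ρ : ℤ} : Off x ρ z ↔ ρ < |z.1 - x.1| ∨ ρ < |z.2 - x.2| := by
  unfold Off nm
  exact lt_max_iff

theorem cell_far {v : ℤ × ℤ} (hv : v ∈ Q) {x : ℤ × ℤ} {ρ : ℤ} (hρ : 2 * ρ < n) {z w : ℤ × ℤ}
    (hz : InC n v z) (hw : InC n v w) (hzo : Off x ρ z) (hwo : Off x ρ w) :
    Jg (CA.enl Q n) (Off x ρ) z w := by
  have hco : ∀ a b : ℤ, ∃ c, n * a ≤ c ∧ c ≤ n * a + n ∧ ρ < |c - b| := by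
    intro a b
    by_cases h : ρ < |n * a - b|
    · exact ⟨n * a, le_rfl, by omega, h⟩
    · refine ⟨n * a + n, by omega, le_rfl, ?_⟩
      rw [not_lt, abs_le] at h
      rw [lt_abs]
      omega
  obtain ⟨i, hi1, hi2, hi3⟩ := hco v.1 x.1
  obtain ⟨j, hj1, hj2, hj3⟩ := hco v.2 x.2
  have key : ∀ z, InC n v z → Off x ρ z → Jg (CA.enl Q n) (Off x ρ) z (i, j) := by
    rintro ⟨a, b⟩ ⟨a1, a2, a3, a4⟩ ho
    rw [off_iff] at ho
    dsimp only at *
    rcases ho with ho | ho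
    · have h1 : Jg (CA.enl Q n) (Off x ρ) (a, b) (a, j) :=
        col hv ⟨a1, a2, a3, a4⟩ ⟨a1, a2, hj1, hj2⟩ fun t _ _ => off_iff.2 (Or.inl ho)
      have h2 : Jg (CA.enl Q n) (Off x ρ) (a, j) (i, j) :=
        row hv ⟨a1, a2, hj1, hj2⟩ ⟨hi1, hi2, hj1, hj2⟩ fun t _ _ => off_iff.2 (Or.inr hj3)
      exact h1.trans h2
    · have h1 : Jg (CA.enl Q n) (Off x ρ) (a, b) (i, b) :=
        row hv ⟨a1, a2, a3, a4⟩ ⟨hi1, hi2, a3, a4⟩ fun t _ _ => off_iff.2 (Or.inr ho)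
      have h2 : Jg (CA.enl Q n) (Off x ρ) (i, b) (i, j) :=
        col hv ⟨hi1, hi2, a3, a4⟩ ⟨hi1, hi2, hj1, hj2⟩ fun t _ _ => off_iff.2 (Or.inl hi3)
      exact h1.trans h2
  exact (key z hz hzo).trans (Jn.symm (key w hw hwo))

theorem adj_common {v v' : ℤ × ℤ} (h : Adj Q v v') {x : ℤ × ℤ} {ρ : ℤ} (hρ : 2 * ρ < n) :
    ∃ c, InC n v c ∧ InC n v' c ∧ Off x ρ c := by
  obtain ⟨h1, h2, h3⟩ := h
  have hn : (0 : ℤ) ≤ n := Int.natCast_nonneg n
  have key : ∀ v v' : ℤ × ℤ, v' = v + (1, 0) → ∃ c, InC n v c ∧ InC n v' c ∧ Off x ρ c := by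
    rintro ⟨a, b⟩ _ rfl
    by_cases h : ρ < |n * b - x.2|
    · refine ⟨(n * a + n, n * b), ?_, ?_, off_iff.2 (Or.inr h)⟩
      · simp only [InC]; omega
      · simp only [InC, Prod.fst_add, Prod.snd_add, mul_add, mul_one, add_zero]; omega
    · refine ⟨(n * a + n, n * b + n), ?_, ?_, off_iff.2 (Or.inr ?_)⟩
      · simp only [InC]; omega
      · simp only [InC, Prod.fst_add, Prod.snd_add, mul_add, mul_one, add_zero]; omega
      · rw [not_lt, abs_le] at h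
        rw [lt_abs]
        dsimp only
        omega
  have key' : ∀ v v' : ℤ × ℤ, v' = v + (0, 1) → ∃ c, InC n v c ∧ InC n v' c ∧ Off x ρ c := by
    rintro ⟨a, b⟩ _ rfl
    by_cases h : ρ < |n * a - x.1|
    · refine ⟨(n * a, n * b + n), ?_, ?_, off_iff.2 (Or.inl h)⟩
      · simp only [InC]; omega
      · simp only [InC, Prod.fst_add, Prod.snd_add, mul_add, mul_one, add_zero]; omega
    · refine ⟨(n * a + n, n * b + n), ?_, ?_, off_iff.2 (Or.inl ?_)⟩
      · simp only [InC]; omega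
      · simp only [InC, Prod.fst_add, Prod.snd_add, mul_add, mul_one, add_zero]; omega
      · rw [not_lt, abs_le] at h
        rw [lt_abs]
        dsimp only
        omega
  rcases h3 with h3 | h3 | h3 | h3
  · exact key v v' h3
  · obtain ⟨c, c1, c2, c3⟩ := key v' v h3
    exact ⟨c, c2, c1, c3⟩
  · exact key' v v' h3
  · obtain ⟨c, c1, c2, c3⟩ := key' v' v h3
    exact ⟨c, c2, c1, c3⟩

theorem far_all {v v' : ℤ × ℤ} (hv : v ∈ Q) (h : Relation.ReflTransGen (Adj Q) v v')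
    {x : ℤ × ℤ} {ρ : ℤ} (hρ : 2 * ρ < n) {z : ℤ × ℤ} (hz : InC n v z) (hzo : Off x ρ z) :
    v' ∈ Q ∧ ∀ w, InC n v' w → Off x ρ w → Jg (CA.enl Q n) (Off x ρ) z w := by
  induction h with
  | refl => exact ⟨hv, fun w hw hwo => cell_far hv hρ hz hw hzo hwo⟩
  | tail _ h ih =>
    obtain ⟨c, c1, c2, c3⟩ := adj_common h (x := x) hρ
    exact ⟨h.2.1, fun w hw hwo => (ih.2 c c1 c3).trans (cell_far h.2.1 hρ c2 hw c3 hwo)⟩

/-! ### Near sites -/

theorem near_all {v v' z z' : ℤ × ℤ} (hv : v ∈ Q) (hv' : v' ∈ Q) (hz : InC n v z)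
    (hz' : InC n v' z') {r : ℤ} (hr : r < n) (h : nm (z - z') ≤ r) :
    Jg (CA.enl Q n) (fun u => nm (u - z) ≤ r) z z' := by
  have hc : ∀ a b s t : ℤ, n * a ≤ s → s ≤ n * a + n → n * b ≤ t → t ≤ n * b + n → |s - t| ≤ r →
      ∃ c, n * a ≤ c ∧ c ≤ n * a + n ∧ n * b ≤ c ∧ c ≤ n * b + n ∧ min s t ≤ c ∧ c ≤ max s t := by
    intro a b s t h1 h2 h3 h4 h5
    have hn : (0 : ℤ) ≤ n := Int.natCast_nonneg n
    rw [abs_le] at h5
    by_cases hn0 : (n : ℤ) = 0
    · rw [hn0] at h1 h2 h3 h4 ⊢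
      exact ⟨0, by omega⟩
    have hn1 : (0 : ℤ) < n := by omega
    have e1 : a ≤ b + 1 := by
      by_contra hab
      have : n * (b + 2) ≤ n * a := mul_le_mul_of_nonneg_left (by omega) hn
      rw [mul_add] at this
      omega
    have e2 : b ≤ a + 1 := by
      by_contra hab
      have : n * (a + 2) ≤ n * b := mul_le_mul_of_nonneg_left (by omega) hn
      rw [mul_add] at this
      omega
    have e3 : a = b ∨ a = b + 1 ∨ b = a + 1 := by omega
    rcases e3 with rfl | rfl | rfl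
    · exact ⟨s, by omega⟩
    · rw [mul_add, mul_one] at h1 h2
      refine ⟨n * b + n, ?_⟩
      rw [mul_add, mul_one]
      omega
    · rw [mul_add, mul_one] at h3 h4
      refine ⟨n * a + n, ?_⟩
      rw [mul_add, mul_one]
      omega
  obtain ⟨h1, h2⟩ := H45.nm_le.1 h
  obtain ⟨i, i1, i2, i3, i4, i5, i6⟩ := hc v.1 v'.1 z.1 z'.1 hz.1 hz.2.1 hz'.1 hz'.2.1 h1
  obtain ⟨j, j1, j2, j3, j4, j5, j6⟩ := hc v.2 v'.2 z.2 z'.2 hz.2.2.1 hz.2.2.2 hz'.2.2.1
    hz'.2.2.2 h2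
  simp only [Prod.fst_sub, Prod.snd_sub, abs_le] at h1 h2
  have k1 : Jg (CA.enl Q n) (fun u => nm (u - z) ≤ r) z (i, j) := by
    refine rect hv hz ⟨i1, i2, j1, j2⟩ ?_
    intro u u1 u2 u3 u4
    dsimp only at u1 u2 u3 u4
    simp only [H45.nm_le, Prod.fst_sub, Prod.snd_sub, abs_le]
    omega
  have k2 : Jg (CA.enl Q n) (fun u => nm (u - z) ≤ r) (i, j) z' := by
    refine rect hv' ⟨i3, i4, j3, j4⟩ hz' ?_
    intro u u1 u2 u3 u4
    dsimp only at u1 u2 u3 u4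
    simp only [H45.nm_le, Prod.fst_sub, Prod.snd_sub, abs_le]
    omega
  exact k1.trans k2

/-! ### The boundary -/

theorem not_mem_enl {v w : ℤ × ℤ} (hv : v ∉ Q) (h : n * v.1 ≤ w.1 ∧ w.1 < n * v.1 + n ∧
    n * v.2 ≤ w.2 ∧ w.2 < n * v.2 + n) : w ∉ CA.enl Q n := by
  rw [mem_enl]
  rintro ⟨v', hv', h'⟩
  rw [cell_unique h h'] at hv
  exact hv hv'

theorem bst_h {i j : ℤ} (h : (i, j) ∈ D ∧ (i, j - 1) ∉ D ∨ (i, j) ∉ D ∧ (i, j - 1) ∈ D) :
    St D (fun e => hdv e ∉ D ∨ tlv e ∉ D) (i, j) (i + 1, j) := by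
  refine st_h (by tauto) ?_
  simp only [hdv, tlv, sub_add_cancel]
  split_ifs <;> tauto

theorem bst_v {i j : ℤ} (h : (i, j) ∈ D ∧ (i - 1, j) ∉ D ∨ (i, j) ∉ D ∧ (i - 1, j) ∈ D) :
    St D (fun e => hdv e ∉ D ∨ tlv e ∉ D) (i, j) (i, j + 1) := by
  refine st_v (by tauto) ?_
  simp only [hdv, tlv, sub_add_cancel]
  split_ifs <;> tauto

/-- One step on a side of the polygon. -/
theorem side_step {v : ℤ × ℤ} {r : Fin 4} (h1 : E6.face v r ∈ Q) (h2 : E6.face v (r - 1) ∉ Q)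
    (k : ℕ) (hk : k < n) : St (CA.enl Q n) (fun e => hdv e ∉ CA.enl Q n ∨ tlv e ∉ CA.enl Q n)
      ((n : ℤ) • v + (k : ℤ) • E6.dir r) ((n : ℤ) • v + ((k + 1 : ℕ) : ℤ) • E6.dir r) := by
  obtain ⟨a, b⟩ := v
  have key : ∀ {c d : ℤ × ℤ}, c ∈ Q → d ∉ Q → ∀ {x y : ℤ × ℤ}, (n * c.1 ≤ x.1 ∧
      x.1 < n * c.1 + n ∧ n * c.2 ≤ x.2 ∧ x.2 < n * c.2 + n) → (n * d.1 ≤ y.1 ∧
      y.1 < n * d.1 + n ∧ n * d.2 ≤ y.2 ∧ y.2 < n * d.2 + n) → x ∈ CA.enl Q n ∧ y ∉ CA.enl Q n :=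
    fun hc hd _ _ hx hy => ⟨mem_enl.2 ⟨_, hc, hx⟩, not_mem_enl hd hy⟩
  have hn : (0 : ℤ) < n := by omega
  revert h1 h2
  refine E2.forall4 (P := fun r => E6.face (a, b) r ∈ Q → E6.face (a, b) (r - 1) ∉ Q →
    St (CA.enl Q n) (fun e => hdv e ∉ CA.enl Q n ∨ tlv e ∉ CA.enl Q n)
      ((n : ℤ) • (a, b) + (k : ℤ) • E6.dir r) ((n : ℤ) • (a, b) + ((k + 1 : ℕ) : ℤ) • E6.dir r))
    ?_ ?_ ?_ ?_ r <;> intro h1 h2
  · have e1 : (n : ℤ) • (a, b) + (k : ℤ) • E6.dir 0 = (n * a + k, n * b) := by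
      ext <;> simp [E6.dir]
    have e2 : (n : ℤ) • (a, b) + ((k + 1 : ℕ) : ℤ) • E6.dir 0 = (n * a + k + 1, n * b) := by
      ext <;> simp [E6.dir, add_assoc]
    have e3 : E6.face (a, b) 0 = (a, b) := by ext <;> simp [E6.face]
    have e4 : E6.face (a, b) (0 - 1) = (a, b - 1) := by
      ext <;> simp [E6.face, show (0 - 1 : Fin 4) = 3 from rfl, sub_eq_add_neg]
    rw [e3] at h1
    rw [e4] at h2
    rw [e1, e2]
    refine bst_h (Or.inl (key h1 h2 ?_ ?_))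
    · dsimp only; omega
    · dsimp only; rw [mul_sub, mul_one]; omega
  · have e1 : (n : ℤ) • (a, b) + (k : ℤ) • E6.dir 1 = (n * a, n * b + k) := by
      ext <;> simp [E6.dir]
    have e2 : (n : ℤ) • (a, b) + ((k + 1 : ℕ) : ℤ) • E6.dir 1 = (n * a, n * b + k + 1) := by
      ext <;> simp [E6.dir, add_assoc]
    have e3 : E6.face (a, b) 1 = (a - 1, b) := by ext <;> simp [E6.face, sub_eq_add_neg]
    have e4 : E6.face (a, b) (1 - 1) = (a, b) := by
      ext <;> simp [E6.face]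
    rw [e3] at h1
    rw [e4] at h2
    rw [e1, e2]
    refine bst_v (Or.inr (And.symm (key h1 h2 ?_ ?_)))
    · dsimp only; rw [mul_sub, mul_one]; omega
    · dsimp only; omega
  · have e1 : (n : ℤ) • (a, b) + (k : ℤ) • E6.dir 2 = (n * a - k - 1 + 1, n * b) := by
      ext <;> simp [E6.dir, sub_eq_add_neg]
    have e2 : (n : ℤ) • (a, b) + ((k + 1 : ℕ) : ℤ) • E6.dir 2 = (n * a - k - 1, n * b) := by
      ext
      · simp [E6.dir]; ring
      · simp [E6.dir]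
    have e3 : E6.face (a, b) 2 = (a - 1, b - 1) := by ext <;> simp [E6.face, sub_eq_add_neg]
    have e4 : E6.face (a, b) (2 - 1) = (a - 1, b) := by
      ext <;> simp [E6.face, show (2 - 1 : Fin 4) = 1 from rfl, sub_eq_add_neg]
    rw [e3] at h1
    rw [e4] at h2
    rw [e1, e2]
    refine St.symm (bst_h (Or.inr (And.symm (key h1 h2 ?_ ?_))))
    · dsimp only; rw [mul_sub, mul_one, mul_sub, mul_one]; omega
    · dsimp only; rw [mul_sub, mul_one]; omega
  · have e1 : (n : ℤ) • (a, b) + (k : ℤ) • E6.dir 3 = (n * a, n * b - k - 1 + 1) := by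
      ext <;> simp [E6.dir, sub_eq_add_neg]
    have e2 : (n : ℤ) • (a, b) + ((k + 1 : ℕ) : ℤ) • E6.dir 3 = (n * a, n * b - k - 1) := by
      ext
      · simp [E6.dir]
      · simp [E6.dir]; ring
    have e3 : E6.face (a, b) 3 = (a, b - 1) := by ext <;> simp [E6.face, sub_eq_add_neg]
    have e4 : E6.face (a, b) (3 - 1) = (a - 1, b - 1) := by
      ext <;> simp [E6.face, show (3 - 1 : Fin 4) = 2 from rfl, sub_eq_add_neg]
    rw [e3] at h1
    rw [e4] at h2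
    rw [e1, e2]
    refine St.symm (bst_v (Or.inl (key h1 h2 ?_ ?_)))
    · dsimp only; rw [mul_sub, mul_one]; omega
    · dsimp only; rw [mul_sub, mul_one, mul_sub, mul_one]; omega

/-- A side of the polygon. -/
theorem side_le {v : ℤ × ℤ} {r : Fin 4} (h1 : E6.face v r ∈ Q) (h2 : E6.face v (r - 1) ∉ Q)
    {a b : ℕ} (hab : a ≤ b) (hb : b ≤ n) :
    Jn (CA.enl Q n) (fun e => hdv e ∉ CA.enl Q n ∨ tlv e ∉ CA.enl Q n)
      ((n : ℤ) • v + (a : ℤ) • E6.dir r) ((n : ℤ) • v + (b : ℤ) • E6.dir r) := by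
  obtain ⟨k, rfl⟩ := Nat.exists_eq_add_of_le hab
  clear hab
  induction k with
  | zero => exact Relation.ReflTransGen.refl
  | succ k ih =>
    exact Relation.ReflTransGen.tail (ih (by omega)) (side_step h1 h2 (a + k) (by omega))

theorem side_inC {v : ℤ × ℤ} (r : Fin 4) {a : ℕ} (ha : a ≤ n) :
    InC n (E6.face v r) ((n : ℤ) • v + (a : ℤ) • E6.dir r) := by
  obtain ⟨x, y⟩ := v
  revert r
  refine E2.forall4 ?_ ?_ ?_ ?_ <;> simp [InC, E6.face, E6.dir, mul_add] <;> omega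

theorem nm_side {v : ℤ × ℤ} (r : Fin 4) (a b : ℕ) :
    nm (((n : ℤ) • v + (a : ℤ) • E6.dir r) - ((n : ℤ) • v + (b : ℤ) • E6.dir r)) =
      |(a : ℤ) - b| := by
  have h : ((n : ℤ) • v + (a : ℤ) • E6.dir r) - ((n : ℤ) • v + (b : ℤ) • E6.dir r) =
      ((a : ℤ) - b) • E6.dir r := by rw [sub_smul]; abel
  rw [h]
  revert r
  refine E2.forall4 ?_ ?_ ?_ ?_ <;> simp [nm, E6.dir, abs_sub_comm]

/-! ### The theorem -/

/-- The geometric hypotheses hold for the enlargements of a connected set of cells. -/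
theorem geo_enl {m : ℤ} (hm : 1 ≤ m) (hmn : 16 * m ≤ n)
    (hconn : ∀ a ∈ Q, ∀ b ∈ Q, Relation.ReflTransGen (Adj Q) a b)
    {v : ℤ × ℤ} {r : Fin 4} (h1 : E6.face v r ∈ Q) (h2 : E6.face v (r - 1) ∉ Q) {k : ℕ}
    (hk : k ≤ n) : Geo 2 m (CA.enl Q n) ((n : ℤ) • v + (k : ℤ) • E6.dir r) where
  one_le := by norm_num
  mpos := hm
  far := by
    intro x s hs hsm z hz z' hz' hzx hzx'
    obtain ⟨c, hc, hcz⟩ := (mem_sites_enl (by omega)).1 hz
    obtain ⟨c', hc', hcz'⟩ := (mem_sites_enl (by omega)).1 hz'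
    have h := (far_all hc (hconn c hc c' hc') (x := x) (ρ := s + 1) (by omega) hcz
      (show s + 1 < nm (z - x) by omega)).2 z' hcz' (show s + 1 < nm (z' - x) by omega)
    refine Jn.mono (fun e he => ?_) h
    have h3 : s + 1 < nm (ls e - x) := he.1
    have h4 := H45.nm_sub_le (ls e) (hdv e) x
    have h5 := nm_hdv_ls e
    rw [H45.nm_sub_comm] at h5
    omega
  near := by
    intro z hz z' hz' q hq hqm hzz
    obtain ⟨c, hc, hcz⟩ := (mem_sites_enl (by omega)).1 hz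
    obtain ⟨c', hc', hcz'⟩ := (mem_sites_enl (by omega)).1 hz'
    refine Jn.mono (fun e he => ?_) (near_all hc hc' hcz hcz' (by omega) hzz)
    have h3 : nm (ls e - z) ≤ q := he.1
    have h4 := H45.nm_sub_le (hdv e) (ls e) z
    have h5 := nm_hdv_ls e
    omega
  hp := (mem_sites_enl (by omega)).2 ⟨_, h1, side_inC r hk⟩
  bd := by
    by_cases h : 4 * m < k
    · refine ⟨(n : ℤ) • v + ((0 : ℕ) : ℤ) • E6.dir r,
        (mem_sites_enl (by omega)).2 ⟨_, h1, side_inC r (by omega)⟩, ?_,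
        Jn.symm (side_le h1 h2 (Nat.zero_le _) hk)⟩
      rw [nm_side]
      rw [lt_abs]
      omega
    · refine ⟨(n : ℤ) • v + (n : ℤ) • E6.dir r,
        (mem_sites_enl (by omega)).2 ⟨_, h1, side_inC r le_rfl⟩, ?_, side_le h1 h2 hk le_rfl⟩
      rw [nm_side]
      rw [lt_abs]
      omega

/-- **The geometric hypotheses for the polygons of the core.** -/
theorem geo_dat (S : CA.Dat) {n : ℕ} {m : ℤ} (hm : 1 ≤ m) (hmn : 16 * m ≤ n) :
    Geo 2 m (S.D n) (S.b n) := by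
  have h := (S.enc (S.p 0) S.r).1 ⟨0, rfl, by rw [zero_add]; exact S.step⟩
  have hk : ⌊S.tp * n⌋₊ ≤ n := by
    have h1 : S.tp * n ≤ n := by nlinarith [S.tp1, S.tp0, (Nat.cast_nonneg n : (0 : ℝ) ≤ n)]
    exact_mod_cast (Nat.floor_le (by have := S.tp0; positivity)).trans h1
  exact geo_enl hm hmn (fun a ha b hb => cells_conn S.poly S.enc ha hb) h.1 h.2 hk

end Vale.Agent.P167.H436
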