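import Vale.Agent.P167.H436.SymS
import Vale.Agent.P167.H166N.V4Defs

/-!
# P167, block START: T1-flat in the four directions, `t1f : H166N.T1F`
-/

namespace Vale.Agent.P167.H436

open Finset MeasureTheory Vale.Agent.P145.FB Vale.Agent.P153 Vale.Agent.P153.Topo
open Vale.Agent.P167.H662 Vale.Agent.P167.H632 Vale.Agent.P167.H871
open Vale.Agent.P167.H945 (roC roS riS roE FLL Ln cb ro_cb)
open Vale.Agent.P167.H135 (shC OA)

theorem roS_cb (k : ℕ) (R : ℤ) : roS^[k] '' cb R ⊆ cb R := by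
  induction k with
  | zero => simp
  | succ k ih =>
    rw [← img_iter]
    exact (Set.image_mono ih).trans (ro_cb R)

theorem cb_sh (z : Pt) (R : ℤ) : (fun v => v + z) '' cb R ⊆ bal z R := by
  rintro _ ⟨v, hv, rfl⟩
  show nm (v + z - z) ≤ R
  rw [add_sub_cancel_right]
  have := cb_bal R hv
  simpa [bal] using this

/-- Transport of the flat event without loss of radius. -/
theorem FlatD_cb {r : Fin 4} {z : ℤ × ℤ} {R : ℤ} {ω : Cfg}
    (h : PS (r + 2).val z ω ∈ FlatD r z R) : ¬ FLL true (-1) 0 1 (cb R) ω := by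
  intro hf
  apply h
  have h1 := OvD_sh (a := z) ((OvD_ros ((OvD_two _ ω).2 hf) (r + 2).val).mono (roS_cb _ R))
  rw [zero_add, (turn2 r).1] at h1
  exact h1.mono (cb_sh z R)

/-- **No strand over a flat point: half plane arm.** -/
theorem flat_arm' (r : Fin 4) (z : Pt) {R : ℤ} (hR : 1 ≤ R) : FlatD r z R ⊆ HArm r z R := by
  intro ω' h
  obtain ⟨ω, hω⟩ : ∃ ω, ω = PI (r + 2).val z ω' := ⟨_, rfl⟩
  have hω' : PS (r + 2).val z ω = ω' := by rw [hω, PS_PI (turn2 r).2.2]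
  rw [← hω'] at h ⊢
  have h1 : ω ∈ OA true true (0, 0) R := H135.noFLL_sub_OA hR (FlatD_cb h)
  obtain ⟨y, hy, hc⟩ := h1
  have hc' : PConn (cs true ω) (Hs 2 0 ∩ bl 0 R) 0 y := hc.mono subset_rfl (by
    rintro s ⟨k1, k2⟩
    exact ⟨k1, k2⟩)
  have h2 := pconn_sh z (pconn_ros hc' (r + 2).val)
  rw [(turn2 r).1, roZ_zero, zero_add] at h2
  refine ⟨_, ?_, h2⟩
  have hy' : nm (y - 0) = R := hy
  rw [add_sub_cancel_right, nm_roZs]
  rwa [sub_zero] at hy'

/-- **T1-flat.** -/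
theorem t1f : H166N.T1F := by
  intro r z R hR ω hω
  obtain ⟨t, ht, hc⟩ := flat_arm' r z hR hω
  refine ⟨t, ht.ge, hc.mono subset_rfl fun s hs => ?_⟩
  have h1 := hs.1
  revert h1
  exact f4 (P := fun r => s ∈ Hs r z → s ∈ H166N.Hs r z) (fun h => h) (fun h => h) (fun h => h)
    (fun h => h) r

end Vale.Agent.P167.H436
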