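import Vale.Agent.P167.H436.Geo
import Vale.Agent.P167.BR.Flat

/-!
# P167, SLE_6: the eroded polygons

`ero Q n k` is the set of squares of the enlargement `CA.enl Q n` whose `k`-neighbourhood is contained
in the enlargement. For `2 k < n` and edge connected cells `Q` its sites are joined across its medial
edges.
-/

namespace Vale.Agent.P167.H436

open Finset Relation
open Vale.Agent.P167.BR Vale.Agent.P167.H167 Vale.Agent.P167.E2

variable {Q Z : Finset (ℤ × ℤ)} {n : ℕ} {k : ℤ}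

open Classical in
/-- The eroded enlargement. -/
noncomputable def ero (Q : Finset (ℤ × ℤ)) (n : ℕ) (k : ℤ) : Finset (ℤ × ℤ) :=
  (CA.enl Q n).filter fun w => ∀ u, nm (u - w) ≤ k → u ∈ CA.enl Q n

theorem mem_ero (hk : 0 ≤ k) {w : ℤ × ℤ} : w ∈ ero Q n k ↔
    ∀ i j : ℤ, w.1 - k ≤ i → i ≤ w.1 + k → w.2 - k ≤ j → j ≤ w.2 + k → (i, j) ∈ CA.enl Q n := by
  classical
  unfold ero
  rw [mem_filter]
  constructor
  · rintro ⟨-, h⟩ i j h1 h2 h3 h4
    refine h _ ?_
    simp only [H45.nm_le, Prod.fst_sub, Prod.snd_sub, abs_le]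
    omega
  · intro h
    refine ⟨h w.1 w.2 (by omega) (by omega) (by omega) (by omega), fun u hu => ?_⟩
    simp only [H45.nm_le, Prod.fst_sub, Prod.snd_sub, abs_le] at hu
    exact h u.1 u.2 (by omega) (by omega) (by omega) (by omega)

theorem ero_sub : ero Q n k ⊆ CA.enl Q n := by
  classical
  unfold ero; exact filter_subset _ _

/-! ### Chains of squares -/

theorem rz_right {v : ℤ × ℤ} (hv : v ∈ Z) : Ec Z v (v.1 + 1, v.2) := by
  have h := ec_of (s := v) (r := 0) (Z := Z) (Or.inl (by rwa [face0]))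
  rw [dir0] at h
  convert h using 1
  ext <;> simp

theorem rz_up {v : ℤ × ℤ} (hv : v ∈ Z) : Ec Z v (v.1, v.2 + 1) := by
  have h := ec_of (s := v) (r := 1) (Z := Z) (Or.inr (by rw [f4_1m, face0]; exact hv))
  rw [dir1] at h
  convert h using 1
  ext <;> simp

theorem rz_diag {v : ℤ × ℤ} (hv : v ∈ Z) : Ec Z (v.1, v.2 + 1) (v.1 + 1, v.2 + 1) := by
  have h := ec_of (s := (v.1, v.2 + 1)) (r := 0) (Z := Z) (Or.inr (by
    rw [f4_0m, face3]
    simpa using hv))
  rw [dir0] at h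
  convert h using 1
  ext <;> simp

/-- The corners of a square. -/
theorem rz_sites {v s : ℤ × ℤ} (hv : v ∈ Z) (hs : s = v ∨ s = (v.1 + 1, v.2) ∨ s = (v.1, v.2 + 1) ∨
    s = (v.1 + 1, v.2 + 1)) : ReflTransGen (Ec Z) v s := by
  rcases hs with rfl | rfl | rfl | rfl
  · exact ReflTransGen.refl
  · exact ReflTransGen.single (rz_right hv)
  · exact ReflTransGen.single (rz_up hv)
  · exact (ReflTransGen.single (rz_up hv)).tail (rz_diag hv)

theorem rz_row_aux (m : ℕ) : ∀ i j : ℤ, (∀ t, i ≤ t → t ≤ i + m → (t, j) ∈ Z) →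
    ReflTransGen (Ec Z) (i, j) (i + m, j) := by
  induction m with
  | zero => intro i j _; simp only [Nat.cast_zero, add_zero]; exact ReflTransGen.refl
  | succ m ih =>
    intro i j h
    push_cast at h ⊢
    have h1 := ih i j fun t h1 h2 => h t h1 (by omega)
    have h2 := rz_right (h (i + m) (by omega) (by omega))
    rw [← add_assoc]
    exact h1.tail h2

theorem rz_col_aux (m : ℕ) : ∀ i j : ℤ, (∀ t, j ≤ t → t ≤ j + m → (i, t) ∈ Z) →
    ReflTransGen (Ec Z) (i, j) (i, j + m) := by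
  induction m with
  | zero => intro i j _; simp only [Nat.cast_zero, add_zero]; exact ReflTransGen.refl
  | succ m ih =>
    intro i j h
    push_cast at h ⊢
    have h1 := ih i j fun t h1 h2 => h t h1 (by omega)
    have h2 := rz_up (h (j + m) (by omega) (by omega))
    rw [← add_assoc]
    exact h1.tail h2

theorem rz_row {i i' j : ℤ} (h : ∀ t, min i i' ≤ t → t ≤ max i i' → (t, j) ∈ Z) :
    ReflTransGen (Ec Z) (i, j) (i', j) := by
  rcases le_total i i' with hi | hi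
  · have h1 := rz_row_aux (Z := Z) (i' - i).toNat i j fun t h1 h2 => h t (by omega) (by omega)
    rwa [Int.toNat_of_nonneg (by omega), add_sub_cancel] at h1
  · have h1 := rz_row_aux (Z := Z) (i - i').toNat i' j fun t h1 h2 => h t (by omega) (by omega)
    rw [Int.toNat_of_nonneg (by omega), add_sub_cancel] at h1
    exact ec_reach_symm h1

theorem rz_col {i j j' : ℤ} (h : ∀ t, min j j' ≤ t → t ≤ max j j' → (i, t) ∈ Z) :
    ReflTransGen (Ec Z) (i, j) (i, j') := by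
  rcases le_total j j' with hi | hi
  · have h1 := rz_col_aux (Z := Z) (j' - j).toNat i j fun t h1 h2 => h t (by omega) (by omega)
    rwa [Int.toNat_of_nonneg (by omega), add_sub_cancel] at h1
  · have h1 := rz_col_aux (Z := Z) (j - j').toNat i j' fun t h1 h2 => h t (by omega) (by omega)
    rw [Int.toNat_of_nonneg (by omega), add_sub_cancel] at h1
    exact ec_reach_symm h1

/-! ### Motion towards the centre of the cell -/

/-- The square `w` is in the block of the cell `v`. -/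
def Bl (n : ℕ) (v w : ℤ × ℤ) : Prop :=
  n * v.1 ≤ w.1 ∧ w.1 < n * v.1 + n ∧ n * v.2 ≤ w.2 ∧ w.2 < n * v.2 + n

theorem bl_coord {a b x : ℤ} (h1 : n * a ≤ x) (h2 : x < n * a + n) (h3 : n * b ≤ x)
    (h4 : x < n * b + n) : a = b := by
  have hn : (0 : ℤ) < n := by omega
  have h5 : n * a < n * (b + 1) := by rw [mul_add, mul_one]; omega
  have h6 : n * b < n * (a + 1) := by rw [mul_add, mul_one]; omega
  have h7 := lt_of_mul_lt_mul_left h5 hn.le
  have h8 := lt_of_mul_lt_mul_left h6 hn.le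
  omega

theorem shr_h (hk : 0 ≤ k) {v w : ℤ × ℤ} (hw : w ∈ ero Q n k) (hv : Bl n v w) {c t : ℤ}
    (hc1 : k ≤ c) (hc2 : c + k < n) (ht : w.1 ≤ t ∧ t ≤ n * v.1 + c ∨
      n * v.1 + c ≤ t ∧ t ≤ w.1) : (t, w.2) ∈ ero Q n k := by
  rw [mem_ero hk] at hw ⊢
  intro i j h1 h2 h3 h4
  dsimp only at h1 h2 h3 h4
  obtain ⟨a1, a2, a3, a4⟩ := hv
  by_cases h : w.1 - k ≤ i ∧ i ≤ w.1 + k
  · exact hw i j h.1 h.2 h3 h4
  · have h5 := hw w.1 j (by omega) (by omega) h3 h4
    rw [mem_enl] at h5 ⊢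
    obtain ⟨v', hv', b1, b2, b3, b4⟩ := h5
    dsimp only at b1 b2 b3 b4
    have h6 := bl_coord b1 b2 a1 a2
    refine ⟨v', hv', ?_⟩
    rw [h6]
    dsimp only
    omega

theorem shr_v (hk : 0 ≤ k) {v w : ℤ × ℤ} (hw : w ∈ ero Q n k) (hv : Bl n v w) {c t : ℤ}
    (hc1 : k ≤ c) (hc2 : c + k < n) (ht : w.2 ≤ t ∧ t ≤ n * v.2 + c ∨
      n * v.2 + c ≤ t ∧ t ≤ w.2) : (w.1, t) ∈ ero Q n k := by
  rw [mem_ero hk] at hw ⊢
  intro i j h1 h2 h3 h4
  dsimp only at h1 h2 h3 h4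
  obtain ⟨a1, a2, a3, a4⟩ := hv
  by_cases h : w.2 - k ≤ j ∧ j ≤ w.2 + k
  · exact hw i j h1 h2 h.1 h.2
  · have h5 := hw i w.2 h1 h2 (by omega) (by omega)
    rw [mem_enl] at h5 ⊢
    obtain ⟨v', hv', b1, b2, b3, b4⟩ := h5
    dsimp only at b1 b2 b3 b4
    have h6 := bl_coord b3 b4 a3 a4
    refine ⟨v', hv', ?_⟩
    rw [h6]
    dsimp only
    omega

/-- Every square of the eroded domain is joined to the centre of its cell. -/
theorem to_centre (hk : 0 ≤ k) {v w : ℤ × ℤ} (hw : w ∈ ero Q n k) (hv : Bl n v w) {c : ℤ}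
    (hc1 : k ≤ c) (hc2 : c + k < n) :
    ReflTransGen (Ec (ero Q n k)) w (n * v.1 + c, n * v.2 + c) := by
  have h1 : ReflTransGen (Ec (ero Q n k)) (w.1, w.2) (n * v.1 + c, w.2) :=
    rz_row fun t h1 h2 => shr_h hk hw hv hc1 hc2 (by omega)
  have hw' : (n * v.1 + c, w.2) ∈ ero Q n k := shr_h hk hw hv hc1 hc2 (by omega)
  have hv' : Bl n v (n * v.1 + c, w.2) := by
    obtain ⟨a1, a2, a3, a4⟩ := hv
    refine ⟨?_, ?_, a3, a4⟩ <;> dsimp only <;> omega
  have h2 : ReflTransGen (Ec (ero Q n k)) (n * v.1 + c, w.2) (n * v.1 + c, n * v.2 + c) :=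
    rz_col fun t h1 h2 => by
      have := shr_v hk hw' hv' hc1 hc2 (t := t) (by dsimp only; omega)
      exact this
  exact h1.trans h2

theorem centre_h (hk : 0 ≤ k) {v : ℤ × ℤ} (h1 : v ∈ Q) (h2 : v + (1, 0) ∈ Q) {c : ℤ}
    (hc1 : k ≤ c) (hc2 : c + k < n) : ReflTransGen (Ec (ero Q n k)) (n * v.1 + c, n * v.2 + c)
      (n * (v + (1, 0)).1 + c, n * (v + (1, 0)).2 + c) := by
  have e1 : n * (v + (1, 0)).1 + c = n * v.1 + n + c := by
    rw [Prod.fst_add, mul_add, mul_one]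
  have e2 : n * (v + (1, 0)).2 + c = n * v.2 + c := by
    rw [Prod.snd_add, add_zero]
  rw [e1, e2]
  refine rz_row fun t h3 h4 => ?_
  rw [mem_ero hk]
  intro i j h5 h6 h7 h8
  dsimp only at h5 h6 h7 h8
  rw [mem_enl]
  by_cases h : i < n * v.1 + n
  · exact ⟨v, h1, by dsimp only; omega⟩
  · refine ⟨_, h2, ?_⟩
    simp only [Prod.fst_add, Prod.snd_add, mul_add, mul_one, add_zero]
    omega

theorem centre_v (hk : 0 ≤ k) {v : ℤ × ℤ} (h1 : v ∈ Q) (h2 : v + (0, 1) ∈ Q) {c : ℤ}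
    (hc1 : k ≤ c) (hc2 : c + k < n) : ReflTransGen (Ec (ero Q n k)) (n * v.1 + c, n * v.2 + c)
      (n * (v + (0, 1)).1 + c, n * (v + (0, 1)).2 + c) := by
  have e1 : n * (v + (0, 1)).2 + c = n * v.2 + n + c := by
    rw [Prod.snd_add, mul_add, mul_one]
  have e2 : n * (v + (0, 1)).1 + c = n * v.1 + c := by
    rw [Prod.fst_add, add_zero]
  rw [e1, e2]
  refine rz_col fun t h3 h4 => ?_
  rw [mem_ero hk]
  intro i j h5 h6 h7 h8
  dsimp only at h5 h6 h7 h8
  rw [mem_enl]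
  by_cases h : j < n * v.2 + n
  · exact ⟨v, h1, by dsimp only; omega⟩
  · refine ⟨_, h2, ?_⟩
    simp only [Prod.fst_add, Prod.snd_add, mul_add, mul_one, add_zero]
    omega

/-- The centres of the cells are joined. -/
theorem centre_conn (hk : 0 ≤ k) {v v' : ℤ × ℤ} (h : ReflTransGen (Adj Q) v v') {c : ℤ}
    (hc1 : k ≤ c) (hc2 : c + k < n) : ReflTransGen (Ec (ero Q n k)) (n * v.1 + c, n * v.2 + c)
      (n * v'.1 + c, n * v'.2 + c) := by
  induction h with
  | refl => exact ReflTransGen.refl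
  | tail _ h ih =>
    refine ih.trans ?_
    obtain ⟨h1, h2, h3 | h3 | h3 | h3⟩ := h
    · rw [h3] at h2 ⊢; exact centre_h hk h1 h2 hc1 hc2
    · rw [h3] at h1 ⊢; exact ec_reach_symm (centre_h hk h2 h1 hc1 hc2)
    · rw [h3] at h2 ⊢; exact centre_v hk h1 h2 hc1 hc2
    · rw [h3] at h1 ⊢; exact ec_reach_symm (centre_v hk h2 h1 hc1 hc2)

/-- **The eroded enlargement of a connected set of cells is connected.** -/
theorem econ_ero (hconn : ∀ a ∈ Q, ∀ b ∈ Q, ReflTransGen (Adj Q) a b) (hk : 0 ≤ k)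
    (hkn : 2 * k < n) : ECon (ero Q n k) := by
  have key : ∀ s ∈ sites (ero Q n k), ∃ v ∈ Q, ReflTransGen (Ec (ero Q n k)) s
      (n * v.1 + n / 2, n * v.2 + n / 2) := by
    intro s hs
    obtain ⟨w, hw, h⟩ : ∃ w ∈ ero Q n k, s = w ∨ s = (w.1 + 1, w.2) ∨ s = (w.1, w.2 + 1) ∨
        s = (w.1 + 1, w.2 + 1) := by
      simp only [sites, Finset.mem_biUnion, Finset.mem_insert, Finset.mem_singleton] at hs
      exact hs
    obtain ⟨v, hv, hb⟩ := mem_enl.1 (ero_sub hw)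
    exact ⟨v, hv, (ec_reach_symm (rz_sites hw h)).trans
      (to_centre hk hw hb (by omega) (by omega))⟩
  intro s hs t ht
  obtain ⟨v, hv, h1⟩ := key s hs
  obtain ⟨v', hv', h2⟩ := key t ht
  exact (h1.trans (centre_conn hk (hconn v hv v' hv') (by omega) (by omega))).trans
    (ec_reach_symm h2)

/-- All sites of the enlargement are joined. -/
theorem econ_enl (hconn : ∀ a ∈ Q, ∀ b ∈ Q, ReflTransGen (Adj Q) a b) (hn : 0 < n) :
    ECon (CA.enl Q n) := by
  have h := econ_ero (n := n) hconn (le_refl 0) (by omega)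
  have e : ero Q n 0 = CA.enl Q n := by
    refine Finset.Subset.antisymm ero_sub fun w hw => ?_
    rw [mem_ero le_rfl]
    intro i j h1 h2 h3 h4
    have : (i, j) = w := by ext <;> dsimp only <;> omega
    rwa [this]
  rwa [e] at h

end Vale.Agent.P167.H436
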