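import Vale.Agent.P167.H436.Ero
import Vale.Agent.P167.H562.MAJ1
import Vale.Agent.P167.CA.Cell
import Vale.Agent.P167.H638.Cell

/-!
# P167, SLE_6: smooth neutral charges in the polygons of the core are bumps

`bumps_dat`: the charge `t * cms f (1 / n)` of a neutral test function is, uniformly for `|t| ≤ T` and for
large `n`, a bump in the sense of `H562.MAJ.Bumps`, in the eroded domain `ero S.Q n k`, `k ≈ κ n`.
-/

namespace Vale.Agent.P167.H436

open Finset Relation MeasureTheory Filter Topology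
open Vale.Agent.P167.BR Vale.Agent.P167.H562.SML Vale.Agent.P167.H562.MAJ
open Vale.Agent.P167.H45
open Vale.Agent.P167.H167 (tot ws_zero)
open Vale.Agent.P167.BVP (Test)

/-! ### Cell masses -/

theorem vol_cl {n : ℕ} (hn : 0 < n) (s : ℤ × ℤ) :
    volume (CA.cl n s) = ENNReal.ofReal ((1 / (n : ℝ)) ^ 2) := by
  have hn' : (0 : ℝ) < 1 / n := by positivity
  rw [← H638.vol_cl hn' s,
    ← Complex.volume_preserving_equiv_real_prod.measure_preimage
      (H638.measurableSet_cl _ s).nullMeasurableSet]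
  rfl

theorem cms_abs_le {f : ℂ → ℝ} {M : ℝ} (hM : ∀ z, |f z| ≤ M) {n : ℕ} (hn : 0 < n) (s : ℤ × ℤ) :
    |CA.cms f (1 / n) s| ≤ M / (n : ℝ) ^ 2 := by
  have hv : volume.real (CA.cl n s) = (1 / (n : ℝ)) ^ 2 := by
    rw [Measure.real, vol_cl hn, ENNReal.toReal_ofReal (by positivity)]
  have hfin : volume (CA.cl n s) < ⊤ := by rw [vol_cl hn]; exact ENNReal.ofReal_lt_top
  have h := norm_setIntegral_le_of_norm_le_const (f := f) hfin fun x _ => hM x
  rw [hv, Real.norm_eq_abs] at h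
  rw [CA.cms_eq]
  refine h.trans (le_of_eq ?_)
  rw [div_pow, one_pow, mul_one_div]

theorem exists_bd {f : ℂ → ℝ} {U : Set ℂ} (hf : Test U f) : ∃ M : ℝ, 0 ≤ M ∧ ∀ z, |f z| ≤ M := by
  obtain ⟨M, hM⟩ := hf.1.continuous.bounded_above_of_compact_support hf.2.1
  exact ⟨max M 0, le_max_right _ _, fun x => (hM x).trans (le_max_left _ _)⟩

theorem cms_ne {f : ℂ → ℝ} {n : ℕ} {s : ℤ × ℤ} (h : CA.cms f (1 / n) s ≠ 0) :
    ∃ x ∈ CA.cl n s, f x ≠ 0 := by
  by_contra hcon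
  push Not at hcon
  apply h
  rw [CA.cms_eq]
  exact setIntegral_eq_zero_of_forall_eq_zero hcon

/-! ### The support -/

theorem exists_supp (S : CA.Dat) {f : ℂ → ℝ} (hf : Test S.P f) : ∃ κ > 0, ∀ᶠ n : ℕ in atTop,
    ∀ k : ℤ, 0 ≤ k → (k : ℝ) ≤ κ * n → ∀ z, CA.cms f (1 / n) z ≠ 0 → z ∈ sites (ero S.Q n k) := by
  obtain ⟨r, hr, hsub⟩ := hf.2.1.isCompact.exists_cthickening_subset_open isOpen_interior hf.2.2
  refine ⟨r / 4, by positivity, ?_⟩
  have hev : ∀ᶠ n : ℕ in atTop, 4 / r ≤ (n : ℝ) := tendsto_natCast_atTop_atTop.eventually_ge_atTop _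
  filter_upwards [hev, eventually_gt_atTop 0] with n hn hn0 k hk0 hk z hz
  have hn0' : (0 : ℝ) < n := by exact_mod_cast hn0
  have hn1 : 4 ≤ r * n := by rw [div_le_iff₀ hr] at hn; linarith
  obtain ⟨x, hx, hfx⟩ := cms_ne hz
  rw [CA.mem_cl] at hx
  unfold CA.cs at hx
  -- the square
  have hx1 : ⌊x.re * n⌋ = z.1 - 1 := by rw [← hx]; simp
  have hx2 : ⌊x.im * n⌋ = z.2 - 1 := by rw [← hx]; simp
  have a1 := Int.floor_le (x.re * n)
  have a2 := Int.lt_floor_add_one (x.re * n)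
  have a3 := Int.floor_le (x.im * n)
  have a4 := Int.lt_floor_add_one (x.im * n)
  rw [hx1] at a1 a2
  rw [hx2] at a3 a4
  push_cast at a1 a2 a3 a4
  have hw : ((z.1 - 1, z.2 - 1) : ℤ × ℤ) ∈ ero S.Q n k := by
    rw [mem_ero hk0]
    intro i j h1 h2 h3 h4
    dsimp only at h1 h2 h3 h4
    set y : ℂ := ⟨(i + 1 / 2) / n, (j + 1 / 2) / n⟩ with hy
    have hy1 : y.re * n = i + 1 / 2 := by rw [hy]; field_simp
    have hy2 : y.im * n = j + 1 / 2 := by rw [hy]; field_simp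
    have hyin : y ∈ S.P := by
      apply hsub
      refine Metric.mem_cthickening_of_dist_le y x r _ (subset_tsupport _ hfx) ?_
      rw [dist_eq_norm]
      refine (Complex.norm_le_abs_re_add_abs_im _).trans ?_
      have h1' : ((z.1 : ℝ) - 1) - k ≤ i := by exact_mod_cast h1
      have h2' : (i : ℝ) ≤ (z.1 - 1) + k := by exact_mod_cast h2
      have h3' : ((z.2 : ℝ) - 1) - k ≤ j := by exact_mod_cast h3
      have h4' : (j : ℝ) ≤ (z.2 - 1) + k := by exact_mod_cast h4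
      have e1 : |(y - x).re| ≤ r / 2 := by
        rw [Complex.sub_re, abs_le]
        constructor
        · have : (- (r / 2)) * n ≤ (y.re - x.re) * n := by rw [sub_mul, hy1]; nlinarith
          exact le_of_mul_le_mul_right this hn0'
        · have : (y.re - x.re) * n ≤ (r / 2) * n := by rw [sub_mul, hy1]; nlinarith
          exact le_of_mul_le_mul_right this hn0'
      have e2 : |(y - x).im| ≤ r / 2 := by
        rw [Complex.sub_im, abs_le]
        constructor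
        · have : (- (r / 2)) * n ≤ (y.im - x.im) * n := by rw [sub_mul, hy2]; nlinarith
          exact le_of_mul_le_mul_right this hn0'
        · have : (y.im - x.im) * n ≤ (r / 2) * n := by rw [sub_mul, hy2]; nlinarith
          exact le_of_mul_le_mul_right this hn0'
      linarith
    have b1 := Int.floor_le y.re
    have b2 := Int.lt_floor_add_one y.re
    have b3 := Int.floor_le y.im
    have b4 := Int.lt_floor_add_one y.im
    have hv : ((⌊y.re⌋, ⌊y.im⌋) : ℤ × ℤ) ∈ S.Q :=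
      CA.mem_of_interior hyin b1 b2.le b3 b4.le
    rw [mem_enl]
    refine ⟨_, hv, ?_⟩
    dsimp only
    have c1 : (n : ℝ) * ⌊y.re⌋ ≤ i + 1 / 2 := by rw [← hy1]; nlinarith
    have c2 : (i : ℝ) + 1 / 2 < n * ⌊y.re⌋ + n := by rw [← hy1]; nlinarith
    have c3 : (n : ℝ) * ⌊y.im⌋ ≤ j + 1 / 2 := by rw [← hy2]; nlinarith
    have c4 : (j : ℝ) + 1 / 2 < n * ⌊y.im⌋ + n := by rw [← hy2]; nlinarith
    have d1 : ((n : ℤ) * ⌊y.re⌋ : ℤ) < i + 1 := by
      have : (((n : ℤ) * ⌊y.re⌋ : ℤ) : ℝ) < ((i + 1 : ℤ) : ℝ) := by push_cast; linarith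
      exact_mod_cast this
    have d2 : i < (n : ℤ) * ⌊y.re⌋ + n := by
      have : ((i : ℤ) : ℝ) < (((n : ℤ) * ⌊y.re⌋ + n : ℤ) : ℝ) := by push_cast; linarith
      exact_mod_cast this
    have d3 : ((n : ℤ) * ⌊y.im⌋ : ℤ) < j + 1 := by
      have : (((n : ℤ) * ⌊y.im⌋ : ℤ) : ℝ) < ((j + 1 : ℤ) : ℝ) := by push_cast; linarith
      exact_mod_cast this
    have d4 : j < (n : ℤ) * ⌊y.im⌋ + n := by
      have : ((j : ℤ) : ℝ) < (((n : ℤ) * ⌊y.im⌋ + n : ℤ) : ℝ) := by push_cast; linarith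
      exact_mod_cast this
    omega
  exact CA.mem_sites hw (Or.inr (Or.inr (Or.inr (by ext <;> simp))))

/-- The domain is in a ball. -/
theorem exists_R (S : CA.Dat) : ∃ R : ℝ, 0 < R ∧ ∀ n : ℕ, ∀ v ∈ S.D n, (nm v : ℝ) ≤ R * n := by
  obtain ⟨B, hB⟩ : ∃ B : ℤ, ∀ v ∈ S.Q, nm v ≤ B := by
    refine ⟨∑ v ∈ S.Q, nm v, fun v hv => Finset.single_le_sum (f := nm) (fun u _ => ?_) hv⟩
    exact (abs_nonneg _).trans (le_max_left _ _)
  refine ⟨|(B : ℝ)| + 1, by positivity, fun n v hv => ?_⟩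
  obtain ⟨c, hc, h1, h2, h3, h4⟩ := mem_enl.1 hv
  have h5 := hB c hc
  rw [H45.nm_le] at h5
  obtain ⟨h6, h7⟩ := h5
  rw [abs_le] at h6 h7
  have hn : (0 : ℤ) ≤ n := Int.natCast_nonneg n
  have h8 : nm v ≤ (|B| + 1) * n := by
    have hB' := le_abs_self B
    rw [H45.nm_le, abs_le, abs_le]
    refine ⟨⟨?_, ?_⟩, ?_, ?_⟩ <;> nlinarith
  exact_mod_cast h8

/-! ### The base point -/

/-- The winding number vanishes at the base site. -/
theorem W_base (S : CA.Dat) {n : ℕ} (hn : 0 < n) {ω : Cfg} {A : Finset Ed}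
    (hA : A ∈ pcs ω (S.D n)) (hl : IsLp (S.D n) A) : W A (S.b n) = 0 := by
  have hloop := BR.IsLp.isLoop hA hl
  have hl0 : NeZero S.l := ⟨by have := S.poly.1; omega⟩
  set P : Ed → Prop := fun e => hdv e ∉ S.D n ∨ tlv e ∉ S.D n with hP
  have hPA : ∀ e ∈ A, ¬ P e := by
    rintro e he (h | h)
    · exact h (hl e he)
    · exact h (BR.IsLp.tl hA hl he)
  -- the sites of the polygon are joined along the boundary
  have hstep : ∀ i : ZMod S.l, H167.Jn (S.D n) P ((n : ℤ) • S.p i) ((n : ℤ) • S.p (i + 1)) := by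
    intro i
    have h1 := E2.enc_out S.poly S.enc (i := i)
    have h2 := side_le (n := n) h1.1 h1.2 (Nat.zero_le n) le_rfl
    have h3 := E2.ro_spec S.poly i
    rw [Nat.cast_zero, zero_smul, add_zero] at h2
    rw [h3, smul_add]
    exact h2
  have hall : ∀ t : ℕ, H167.Jn (S.D n) P ((n : ℤ) • S.p 0) ((n : ℤ) • S.p (t : ZMod S.l)) := by
    intro t
    induction t with
    | zero => simp only [Nat.cast_zero]; exact ReflTransGen.refl
    | succ t ih =>
      refine ih.trans ?_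
      push_cast
      exact hstep _
  have hp0 : H167.Jn (S.D n) P ((n : ℤ) • S.p 0) (S.b n) := by
    have h := (S.enc (S.p 0) S.r).1 ⟨0, rfl, by rw [zero_add]; exact S.step⟩
    have hk : ⌊S.tp * n⌋₊ ≤ n := by
      have h1 : S.tp * n ≤ n := by nlinarith [S.tp1, S.tp0, (Nat.cast_nonneg n : (0 : ℝ) ≤ n)]
      exact_mod_cast (Nat.floor_le (by have := S.tp0; positivity)).trans h1
    have h2 := side_le (n := n) h.1 h.2 (Nat.zero_le _) hk
    rw [Nat.cast_zero, zero_smul, add_zero] at h2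
    exact h2
  -- the rightmost cell
  obtain ⟨e0, he0⟩ : A.Nonempty := by
    obtain ⟨e0, he0⟩ := hloop
    exact ⟨e0, (he0 e0).2 ⟨0, rfl⟩⟩
  obtain ⟨F, hF, -⟩ := mem_enl.1 (hl e0 he0)
  obtain ⟨a, ha, hmax⟩ := Finset.exists_max_image S.Q (fun a => a.1) ⟨F, hF⟩
  have h1 : a + (1, 0) ∉ S.Q := by
    intro hb
    have h3 := hmax _ hb
    simp at h3
  have h4 : E6.face (a + (1, 0)) 1 = a := by
    ext <;> simp [E6.face]
  have h5 : E6.face (a + (1, 0)) (1 - 1) = a + (1, 0) := by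
    ext <;> simp [E6.face]
  obtain ⟨i, hi1, hi2⟩ := (S.enc (a + (1, 0)) 1).2 ⟨by rw [h4]; exact ha, by rw [h5]; exact h1⟩
  have h6 : W A ((n : ℤ) • S.p i) = 0 := by
    by_contra hne
    classical
    obtain ⟨c, hc⟩ : ∃ c : ℤ, ∀ v ∈ vs A, -c ≤ v.1 ∧ -c ≤ v.2 ∧ v.2 ≤ c := by
      refine ⟨∑ v ∈ vs A, nm v, fun v hv => ?_⟩
      have := Finset.single_le_sum (f := nm) (fun u _ =>
        (abs_nonneg _).trans (le_max_left _ _)) hv
      rw [H45.nm_le, abs_le, abs_le] at this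
      omega
    have h7 := s_out ω A hloop (-c) (n * a.1 + n - 1) (-c) c (fun v hv => ?_) _ hne
    · rw [hi1] at h7
      simp only [Prod.smul_fst, Prod.fst_add, smul_eq_mul, mul_add, mul_one] at h7
      omega
    · obtain ⟨k1, k2, k3⟩ := hc v hv
      refine ⟨k1, ?_, k2, k3⟩
      obtain ⟨e, he, rfl⟩ := mem_image.1 hv
      obtain ⟨c', hc', b1, b2, -, -⟩ := mem_enl.1 (hl e he)
      have := hmax c' hc'
      have : (n : ℤ) * c'.1 ≤ n * a.1 := mul_le_mul_of_nonneg_left this (by positivity)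
      omega
  have h7 := hall i.val
  rw [ZMod.natCast_zmod_val] at h7
  have h8 := H167.pot_jn (potD_W (D := S.D n) hloop) hPA h7
  have h9 := H167.pot_jn (potD_W (D := S.D n) hloop) hPA hp0
  rw [← h9, h8, h6]

/-! ### The bump -/

/-- The total charge vanishes. -/
theorem tot_cms (S : CA.Dat) {f : ℂ → ℝ} (hf : S.FF f) {n : ℕ} (hn : 0 < n) :
    tot (S.D n) (CA.cms f (1 / n)) = 0 := by
  have h := CA.sum_cms hn (CA.Test.integrable hf.1) (fun x hx => CA.Test.mem hf.1 hx) (fun _ => 1)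
  simp only [mul_one] at h
  unfold tot
  show ∑ z ∈ sites (CA.enl S.Q n), CA.cms f (1 / n) z = 0
  rw [h, hf.2]

theorem sites_D (S : CA.Dat) {n : ℕ} (hn : 0 < n) : S.b n ∈ sites (S.D n) := by
  have h := (S.enc (S.p 0) S.r).1 ⟨0, rfl, by rw [zero_add]; exact S.step⟩
  have hk : ⌊S.tp * n⌋₊ ≤ n := by
    have h1 : S.tp * n ≤ n := by nlinarith [S.tp1, S.tp0, (Nat.cast_nonneg n : (0 : ℝ) ≤ n)]
    exact_mod_cast (Nat.floor_le (by have := S.tp0; positivity)).trans h1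
  exact (mem_sites_enl hn).2 ⟨_, h.1, side_inC S.r hk⟩

/-- A loop which does not visit the zone does not see the neutral charge. -/
theorem G_off {ω : Cfg} {D Z : Finset (ℤ × ℤ)} {A : Finset Ed} (hA : A ∈ pcs ω D)
    (hl : IsLp D A) (hZ : Z ⊆ D) (hE : ECon Z) {f : ℤ × ℤ → ℝ}
    (hs : ∀ z, f z ≠ 0 → z ∈ sites Z) (h0 : ∑ z ∈ sites Z, f z = 0) (hV : ¬ Vz Z A) :
    G f A = 0 := by
  classical
  have hloop := BR.IsLp.isLoop hA hl
  by_cases hex : ∃ z0, f z0 ≠ 0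
  · obtain ⟨z0, hz0⟩ := hex
    have hc : ∀ z ∈ sites Z, W A z = W A z0 := fun z hz =>
      pot_zone (potD_W hloop) hZ hV (hE z hz z0 (hs z0 hz0))
    have hfin := ins_fin s_out hloop
    unfold G
    rw [finsum_mem_eq_finite_toFinset_sum _ hfin]
    by_cases hW : W A z0 = 0
    · refine sum_eq_zero fun z hz => ?_
      by_contra hfz
      have h1 : W A z ≠ 0 := hfin.mem_toFinset.1 hz
      exact h1 ((hc z (hs z hfz)).trans hW)
    · rw [← h0]
      symm
      refine sum_subset_zero_on_sdiff ?_ ?_ fun _ _ => rfl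
      · intro z hz
        rw [hfin.mem_toFinset]
        show W A z ≠ 0
        rw [hc z hz]
        exact hW
      · intro z hz
        rw [Finset.mem_sdiff] at hz
        by_contra hfz
        exact hz.2 (hs z hfz)
  · push Not at hex
    unfold G
    simp [hex]

/-- The small loops have small masses. -/
theorem G_small {M κ : ℝ} (hκ : 0 < κ) (hM0 : 0 ≤ M) (hM : M * κ ^ 2 ≤ 1 / 2) {n : ℕ} (hn : 0 < n)
    {g : ℤ × ℤ → ℝ} (hg : ∀ z, |g z| ≤ M / (n : ℝ) ^ 2) {ω : Cfg} {ℓ : Finset Ed}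
    (hℓ : IsLoop ω ℓ) (hs : Small (κ * n) ℓ) : |G g ℓ| ≤ 1 / 2 := by
  have hn' : (1 : ℝ) ≤ n := by exact_mod_cast hn
  have h := bd_G (κ := κ) (ρ := n) (Cm := M) hn' hM0 hg ω ℓ (κ * n) hℓ le_rfl hs
  refine h.trans (le_trans (le_of_eq ?_) hM)
  have hn0 : (n : ℝ) ≠ 0 := by positivity
  field_simp

/-- **Neutral smooth charges are bumps.** -/
theorem bumps_dat (S : CA.Dat) {f : ℂ → ℝ} (hf : S.FF f) (T : ℝ) : ∃ κ M R : ℝ, 0 < κ ∧ 0 ≤ M ∧
    0 < R ∧ ∀ᶠ n : ℕ in atTop, ∃ k : ℤ,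
      (∀ v ∈ ero S.Q n k, (nm v : ℝ) ≤ R * n) ∧
      (∀ z, |CA.cms f (1 / n) z| ≤ M / (n : ℝ) ^ 2) ∧
      (∀ z, CA.cms f (1 / n) z ≠ 0 → z ∈ sites (ero S.Q n k)) ∧
      ∑ z ∈ sites (ero S.Q n k), CA.cms f (1 / n) z = 0 ∧
      ∀ t : ℝ, |t| ≤ T → Bumps {()} (S.D n) (S.b n) (fun _ => ero S.Q n k)
        (fun _ => ero S.Q n k) (fun _ z => t * CA.cms f (1 / n) z) (fun _ => κ * n)
        (fun _ => True) := by
  obtain ⟨κ0, hκ0, hsupp⟩ := exists_supp S hf.1
  obtain ⟨M, hM0, hM⟩ := exists_bd hf.1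
  obtain ⟨R, hR, hRn⟩ := exists_R S
  set M' : ℝ := (|T| + 1) * (M + 1) with hM'
  have hM'1 : 1 ≤ M' := by rw [hM']; nlinarith [abs_nonneg T]
  set κ : ℝ := min (κ0 / 4) (1 / (4 * M')) with hκ
  have hκp : 0 < κ := by positivity
  have hκ1 : κ ≤ κ0 / 4 := min_le_left _ _
  have hκ2 : κ ≤ 1 / (4 * M') := min_le_right _ _
  have hκ3 : κ ≤ 1 / 4 := hκ2.trans (by
    rw [div_le_div_iff₀ (by positivity) (by norm_num)]; linarith)
  have hκM : M' * κ ^ 2 ≤ 1 / 2 := by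
    have h1 : M' * κ ≤ 1 / 4 := by
      have := mul_le_mul_of_nonneg_left hκ2 (by positivity : 0 ≤ M')
      refine this.trans (le_of_eq ?_)
      field_simp
    nlinarith
  refine ⟨κ, M, R, hκp, hM0, hR, ?_⟩
  have hev : ∀ᶠ n : ℕ in atTop, 8 / κ0 + 16 ≤ (n : ℝ) :=
    tendsto_natCast_atTop_atTop.eventually_ge_atTop _
  filter_upwards [hsupp, hev, eventually_gt_atTop 0] with n hs hn hn0
  have hn0' : (0 : ℝ) < n := by exact_mod_cast hn0
  have hn1 : 8 ≤ κ0 * n := by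
    have h1 : 8 / κ0 ≤ n := by linarith
    rw [div_le_iff₀ hκ0] at h1; linarith
  have hn2 : (16 : ℝ) ≤ n := by have : 0 ≤ 8 / κ0 := by positivity
                                linarith
  set k : ℤ := ⌊κ * n⌋ + 2 with hk
  have hf1 := Int.floor_le (κ * n)
  have hf2 := Int.lt_floor_add_one (κ * n)
  have hf0 : 0 ≤ ⌊κ * n⌋ := Int.floor_nonneg.2 (by positivity)
  have hkk : (k : ℝ) = ⌊κ * n⌋ + 2 := by rw [hk]; push_cast; rfl
  have hk0 : 0 ≤ k := by omega
  have hk1 : (k : ℝ) ≤ κ0 * n := by rw [hkk]; nlinarith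
  have hk2 : 2 * k < n := by
    have : (2 * k : ℝ) < n := by rw [hkk]; nlinarith
    exact_mod_cast this
  have hsub : ero S.Q n k ⊆ S.D n := ero_sub
  have hcc : ∀ a ∈ S.Q, ∀ b ∈ S.Q, ReflTransGen (Adj S.Q) a b :=
    fun a ha b hb => cells_conn S.poly S.enc ha hb
  have hE : ECon (ero S.Q n k) := econ_ero hcc hk0 hk2
  have hs' : ∀ z, CA.cms f (1 / n) z ≠ 0 → z ∈ sites (ero S.Q n k) := hs k hk0 hk1
  have hcm : ∀ z, |CA.cms f (1 / n) z| ≤ M / (n : ℝ) ^ 2 := fun z => cms_abs_le hM hn0 z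
  have htot : ∑ z ∈ sites (ero S.Q n k), CA.cms f (1 / n) z = 0 := by
    rw [← tot_cms S hf hn0]
    refine sum_subset (sites_mono hsub) fun z _ hz => ?_
    by_contra h
    exact hz (hs' z h)
  have hsD : ∀ t : ℝ, ∀ z, t * CA.cms f (1 / n) z ≠ 0 → z ∈ sites (ero S.Q n k) := fun t z hz =>
    hs' z (fun h => hz (by rw [h, mul_zero]))
  refine ⟨k, fun v hv => hRn n v (hsub hv), hcm, hs', htot, fun t ht => ?_⟩
  have htM : ∀ z, |t * CA.cms f (1 / n) z| ≤ M' / (n : ℝ) ^ 2 := by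
    intro z
    rw [abs_mul, hM', mul_div_assoc]
    refine mul_le_mul (ht.trans ?_) ((hcm z).trans ?_) (abs_nonneg _) (by positivity)
    · linarith [le_abs_self T]
    · exact div_le_div_of_nonneg_right (by linarith) (by positivity)
  refine
    { sub := fun _ _ => hsub
      zb := fun _ _ => Finset.Subset.refl _
      econ := fun _ _ => hE
      supp := fun _ _ => hsD t
      nbhd := ?_
      small := fun _ _ ω ℓ hℓ hsm => G_small hκp (by positivity) hκM hn0 htM hℓ hsm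
      sep := ?_
      base := fun ω A hA _ hl => W_base S hn0 hA hl
      conn := ?_
      loop := ?_
      tots := ?_ }
  · intro _ _ v hv w hw
    have h1 : nm (w - v) ≤ k := by
      have : (nm (w - v) : ℝ) < ((⌊κ * n⌋ + 2 : ℤ) : ℝ) := by push_cast; linarith
      have : nm (w - v) < ⌊κ * n⌋ + 2 := by exact_mod_cast this
      omega
    rw [H45.nm_le, abs_le, abs_le] at h1
    simp only [Prod.fst_sub, Prod.snd_sub] at h1
    exact (mem_ero hk0).1 hv w.1 w.2 (by omega) (by omega) (by omega) (by omega)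
  · intro i _ j _ h
    exact absurd (Subsingleton.elim i j) h
  · intro _ _ z hz
    exact econ_enl hcc hn0 z (sites_mono hsub hz) _ (sites_D S hn0)
  · intro _ _ ω A hA _ hl hG
    by_contra hV
    refine hG (G_off hA hl hsub hE (hsD t) ?_ hV)
    rw [← mul_sum, htot, mul_zero]
  · intro s _
    have h1 : ∑ j ∈ s, tot (S.D n) (fun z => t * CA.cms f (1 / n) z) = 0 := by
      refine sum_eq_zero fun _ _ => ?_
      have := tot_cms S hf hn0
      unfold tot at this ⊢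
      rw [← mul_sum, this, mul_zero]
    rw [h1, ws_zero]
    norm_num

end Vale.Agent.P167.H436
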