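import Vale.Agent.P167.H662.StartDefs
import Vale.Agent.P167.H945.Sym

/-!
# P167, block START: symmetries of the tip events and of the flat events

`PS r z` is the translation by `z` after the rotation by `r` quarter turns about the site `0`; it
preserves `μ` and maps the events at the site `0` in the direction `0` to the events at the site `z` in
the direction `r`.
-/

namespace Vale.Agent.P167.H436

open Finset MeasureTheory Vale.Agent.P145.FB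
open Vale.Agent.P167.H662 Vale.Agent.P167.H945
open Vale.Agent.P167.H135 (shC shE mp_shC mp_rl rl fx it_sh it_sh' hdv_sh hdv_sh' sg_sh sg_sh' shE_inj
  shC_neg)

/-! ### rays -/

theorem ray_kd (r : Fin 4) (z : ℤ × ℤ) : ∃ h, Kd h (Ray r z) := by
  fin_cases r
  · refine ⟨true, ?_⟩; rintro e ⟨x, -, rfl⟩; exact ⟨_, rfl⟩
  · refine ⟨false, ?_⟩; rintro e ⟨x, -, rfl⟩; exact ⟨_, rfl⟩
  · refine ⟨true, ?_⟩; rintro e ⟨x, -, rfl⟩; exact ⟨_, rfl⟩
  · refine ⟨false, ?_⟩; rintro e ⟨x, -, rfl⟩; exact ⟨_, rfl⟩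

theorem ray_ro (r : Fin 4) : roE '' Ray r 0 = Ray (r + 1) 0 := by
  fin_cases r
  · show roE '' {e | ∃ x, (0 : ℤ × ℤ).1 ≤ x ∧ e = Sum.inr (x, (0 : ℤ × ℤ).2 - 1)} =
      {e | ∃ y, (0 : ℤ × ℤ).2 ≤ y ∧ e = Sum.inl ((0 : ℤ × ℤ).1 - 1, y)}
    ext e
    constructor
    · rintro ⟨_, ⟨x, hx, rfl⟩, rfl⟩
      exact ⟨x, hx, by simp [roE]⟩
    · rintro ⟨x, hx, rfl⟩
      exact ⟨_, ⟨x, hx, rfl⟩, by simp [roE]⟩
  · show roE '' {e | ∃ y, (0 : ℤ × ℤ).2 ≤ y ∧ e = Sum.inl ((0 : ℤ × ℤ).1 - 1, y)} =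
      {e | ∃ x, x < (0 : ℤ × ℤ).1 ∧ e = Sum.inr (x, (0 : ℤ × ℤ).2 - 1)}
    ext e
    constructor
    · rintro ⟨_, ⟨x, hx, rfl⟩, rfl⟩
      refine ⟨-x - 1, ?_, by simp [roE]⟩
      simp only [Prod.snd_zero, Prod.fst_zero] at hx ⊢; omega
    · rintro ⟨x, hx, rfl⟩
      refine ⟨_, ⟨-x - 1, ?_, rfl⟩, by simp [roE]⟩
      simp only [Prod.snd_zero, Prod.fst_zero] at hx ⊢; omega
  · show roE '' {e | ∃ x, x < (0 : ℤ × ℤ).1 ∧ e = Sum.inr (x, (0 : ℤ × ℤ).2 - 1)} =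
      {e | ∃ y, y < (0 : ℤ × ℤ).2 ∧ e = Sum.inl ((0 : ℤ × ℤ).1 - 1, y)}
    ext e
    constructor
    · rintro ⟨_, ⟨x, hx, rfl⟩, rfl⟩
      exact ⟨x, hx, by simp [roE]⟩
    · rintro ⟨x, hx, rfl⟩
      exact ⟨_, ⟨x, hx, rfl⟩, by simp [roE]⟩
  · show roE '' {e | ∃ y, y < (0 : ℤ × ℤ).2 ∧ e = Sum.inl ((0 : ℤ × ℤ).1 - 1, y)} =
      {e | ∃ x, (0 : ℤ × ℤ).1 ≤ x ∧ e = Sum.inr (x, (0 : ℤ × ℤ).2 - 1)}
    ext e
    constructor
    · rintro ⟨_, ⟨x, hx, rfl⟩, rfl⟩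
      refine ⟨-x - 1, ?_, by simp [roE]⟩
      simp only [Prod.snd_zero, Prod.fst_zero] at hx ⊢; omega
    · rintro ⟨x, hx, rfl⟩
      refine ⟨_, ⟨-x - 1, ?_, rfl⟩, by simp [roE]⟩
      simp only [Prod.snd_zero, Prod.fst_zero] at hx ⊢; omega

theorem ray_sh (r : Fin 4) (z a : ℤ × ℤ) : shE a '' Ray r z = Ray r (z + a) := by
  fin_cases r
  · show shE a '' {e | ∃ x, z.1 ≤ x ∧ e = Sum.inr (x, z.2 - 1)} =
      {e | ∃ x, (z + a).1 ≤ x ∧ e = Sum.inr (x, (z + a).2 - 1)}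
    ext e
    constructor
    · rintro ⟨_, ⟨x, hx, rfl⟩, rfl⟩
      refine ⟨x + a.1, by simp only [Prod.fst_add]; omega, ?_⟩
      simp only [shE, Prod.snd_add, Sum.inr.injEq]
      ext <;> simp; ring
    · rintro ⟨x, hx, rfl⟩
      refine ⟨_, ⟨x - a.1, by simp only [Prod.fst_add] at hx; omega, rfl⟩, ?_⟩
      simp only [shE, Prod.snd_add, Sum.inr.injEq]
      ext <;> simp; ring
  · show shE a '' {e | ∃ y, z.2 ≤ y ∧ e = Sum.inl (z.1 - 1, y)} =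
      {e | ∃ y, (z + a).2 ≤ y ∧ e = Sum.inl ((z + a).1 - 1, y)}
    ext e
    constructor
    · rintro ⟨_, ⟨x, hx, rfl⟩, rfl⟩
      refine ⟨x + a.2, by simp only [Prod.snd_add]; omega, ?_⟩
      simp only [shE, Prod.fst_add, Sum.inl.injEq]
      ext <;> simp; ring
    · rintro ⟨x, hx, rfl⟩
      refine ⟨_, ⟨x - a.2, by simp only [Prod.snd_add] at hx; omega, rfl⟩, ?_⟩
      simp only [shE, Prod.fst_add, Sum.inl.injEq]
      ext <;> simp; ring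
  · show shE a '' {e | ∃ x, x < z.1 ∧ e = Sum.inr (x, z.2 - 1)} =
      {e | ∃ x, x < (z + a).1 ∧ e = Sum.inr (x, (z + a).2 - 1)}
    ext e
    constructor
    · rintro ⟨_, ⟨x, hx, rfl⟩, rfl⟩
      refine ⟨x + a.1, by simp only [Prod.fst_add]; omega, ?_⟩
      simp only [shE, Prod.snd_add, Sum.inr.injEq]
      ext <;> simp; ring
    · rintro ⟨x, hx, rfl⟩
      refine ⟨_, ⟨x - a.1, by simp only [Prod.fst_add] at hx; omega, rfl⟩, ?_⟩
      simp only [shE, Prod.snd_add, Sum.inr.injEq]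
      ext <;> simp; ring
  · show shE a '' {e | ∃ y, y < z.2 ∧ e = Sum.inl (z.1 - 1, y)} =
      {e | ∃ y, y < (z + a).2 ∧ e = Sum.inl ((z + a).1 - 1, y)}
    ext e
    constructor
    · rintro ⟨_, ⟨x, hx, rfl⟩, rfl⟩
      refine ⟨x + a.2, by simp only [Prod.snd_add]; omega, ?_⟩
      simp only [shE, Prod.fst_add, Sum.inl.injEq]
      ext <;> simp; ring
    · rintro ⟨x, hx, rfl⟩
      refine ⟨_, ⟨x - a.2, by simp only [Prod.snd_add] at hx; omega, rfl⟩, ?_⟩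
      simp only [shE, Prod.fst_add, Sum.inl.injEq]
      ext <;> simp; ring

/-! ### the two kinds of strands -/

theorem FFD_ro {r : Fin 4} {B : Set (ℤ × ℤ)} {ω : Cfg} (hf : FFD (Ray r 0) B ω) :
    FFD (Ray (r + 1) 0) (roS '' B) (roC ω) := by
  obtain ⟨h, hk⟩ := ray_kd r 0
  have := FFL.ro hk hf
  rwa [ray_ro] at this

theorem FFD_sh {r : Fin 4} {z a : ℤ × ℤ} {B : Set (ℤ × ℤ)} {ω : Cfg} (hf : FFD (Ray r z) B ω) :
    FFD (Ray r (z + a)) ((fun v => v + a) '' B) (shC a ω) := by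
  have := FFL.sh a hf
  rwa [ray_sh] at this

theorem line_ro (r : Fin 4) : roE '' (Ray r 0 ∪ Ray (r + 2) 0) = Ray (r + 1) 0 ∪ Ray (r + 1 + 2) 0 := by
  rw [Set.image_union, ray_ro, ray_ro]
  congr 2
  revert r; decide

theorem line_sh (r : Fin 4) (z a : ℤ × ℤ) :
    shE a '' (Ray r z ∪ Ray (r + 2) z) = Ray r (z + a) ∪ Ray (r + 2) (z + a) := by
  rw [Set.image_union, ray_sh, ray_sh]

theorem line_kd (r : Fin 4) (z : ℤ × ℤ) : ∃ h, Kd h (Ray r z ∪ Ray (r + 2) z) ∧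
    (h = true ↔ (r = 0 ∨ r = 2)) := by
  fin_cases r
  · refine ⟨true, ?_, by decide⟩
    rintro e (⟨x, -, rfl⟩ | ⟨x, -, rfl⟩) <;> exact ⟨_, rfl⟩
  · refine ⟨false, ?_, by decide⟩
    rintro e (⟨x, -, rfl⟩ | ⟨x, -, rfl⟩) <;> exact ⟨_, rfl⟩
  · refine ⟨true, ?_, by decide⟩
    rintro e (⟨x, -, rfl⟩ | ⟨x, -, rfl⟩) <;> exact ⟨_, rfl⟩
  · refine ⟨false, ?_, by decide⟩
    rintro e (⟨x, -, rfl⟩ | ⟨x, -, rfl⟩) <;> exact ⟨_, rfl⟩

theorem os_ro (r : Fin 4) : os (r + 1) = if r = 0 ∨ r = 2 then - os r else os r := by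
  revert r; decide

theorem sg_ro_line {r : Fin 4} {e : Ed} (he : e ∈ Ray r 0 ∪ Ray (r + 2) 0) :
    sg (roE e) = if r = 0 ∨ r = 2 then - sg e else sg e := by
  obtain ⟨h, hk, hh⟩ := line_kd r 0
  obtain ⟨v, hv⟩ := hk e he
  rw [sg_roE]
  by_cases hr : r = 0 ∨ r = 2
  · rw [hh.2 hr] at hv
    rw [hv, if_pos hr]
    simp
  · have : h = false := by
      cases h
      · rfl
      · exact absurd (hh.1 rfl) hr
    rw [this] at hv
    rw [hv, if_neg hr]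
    simp

theorem mem_img {f : Ed → Ed} (hf : Function.Injective f) {L : Set Ed} {e : Ed} :
    f e ∈ f '' L ↔ e ∈ L := hf.mem_set_image

theorem OvD_ro {r : Fin 4} {B : Set (ℤ × ℤ)} {ω : Cfg} (hf : OvD r 0 B ω) :
    OvD (r + 1) 0 (roS '' B) (roC ω) := by
  obtain ⟨e, n, h1, h2, h3, h4, h5, h6, h7, h8⟩ := hf
  refine ⟨roE e, n, h1, ?_, ?_, fun i hi hin => ?_, fun i hi => ?_, ?_, ?_, ?_⟩
  · rw [← line_ro]; exact ⟨e, h2, rfl⟩
  · rw [iter_ro, ← line_ro]; exact ⟨_, h3, rfl⟩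
  · rw [iter_ro, ← line_ro, mem_img roE_inj]
    exact h4 i hi hin
  · rw [iter_ro, hdv_ro]
    exact ⟨_, h5 i hi, rfl⟩
  · rw [sg_ro_line h2, h6, os_ro]
  · rw [iter_ro, sg_ro_line h3, h7, os_ro]
    split_ifs <;> ring
  · rw [iter_ro, ← ray_ro, mem_img roE_inj, mem_img roE_inj]
    exact h8

theorem OvD_sh {r : Fin 4} {z a : ℤ × ℤ} {B : Set (ℤ × ℤ)} {ω : Cfg} (hf : OvD r z B ω) :
    OvD r (z + a) ((fun v => v + a) '' B) (shC a ω) := by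
  obtain ⟨e, n, h1, h2, h3, h4, h5, h6, h7, h8⟩ := hf
  by_cases ha : Even (a.1 + a.2)
  · refine ⟨shE a e, n, h1, ?_, ?_, fun i hi hin => ?_, fun i hi => ?_, ?_, ?_, ?_⟩
    · rw [← line_sh]; exact ⟨e, h2, rfl⟩
    · rw [it_sh ha, ← line_sh]; exact ⟨_, h3, rfl⟩
    · rw [it_sh ha, ← line_sh, mem_img (shE_inj a)]
      exact h4 i hi hin
    · rw [it_sh ha, hdv_sh ha]
      exact ⟨_, h5 i hi, rfl⟩
    · rw [sg_sh ha, h6]
    · rw [it_sh ha, sg_sh ha, h7]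
    · rw [it_sh ha, ← ray_sh, mem_img (shE_inj a), mem_img (shE_inj a)]
      exact h8
  · have key : ∀ i ≤ n, (nx (shC a ω))^[i] (shE a ((nx ω)^[n] e)) =
        shE a ((nx ω)^[n - i] e) := by
      intro i hi
      have := it_sh' ha ω ((nx ω)^[n - i] e) i
      rw [← Function.iterate_add_apply, show i + (n - i) = n by omega] at this
      exact this
    refine ⟨shE a ((nx ω)^[n] e), n, h1, ?_, ?_, fun i hi hin => ?_, fun i hi => ?_, ?_, ?_, ?_⟩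
    · rw [← line_sh]; exact ⟨_, h3, rfl⟩
    · rw [key n le_rfl, Nat.sub_self, ← line_sh]; exact ⟨e, h2, rfl⟩
    · rw [key i hin.le, ← line_sh, mem_img (shE_inj a)]
      exact h4 (n - i) (by omega) (by omega)
    · rw [key i hi.le, hdv_sh' ha]
      refine ⟨_, h5 (n - i - 1) (by omega), ?_⟩
      show _ = _
      congr 1
      obtain ⟨m, hm⟩ : ∃ m, n - i = m + 1 := ⟨n - i - 1, by omega⟩
      rw [hm, Function.iterate_succ_apply', tlv_nx]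
      rfl
    · rw [sg_sh' ha, h7, neg_neg]
    · rw [key n le_rfl, Nat.sub_self, sg_sh' ha]
      show - sg e = _
      rw [h6]
    · rw [key n le_rfl, Nat.sub_self, ← ray_sh, mem_img (shE_inj a), mem_img (shE_inj a)]
      show (_ ↔ ¬ (e ∈ _))
      tauto

/-! ### iterated rotations -/

/-- `k` quarter turns of a direction. -/
def adv (k : ℕ) (r : Fin 4) : Fin 4 := (fun s => s + 1)^[k] r

theorem adv_succ (k : ℕ) (r : Fin 4) : adv (k + 1) r = adv k r + 1 := by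
  unfold adv
  rw [Function.iterate_succ_apply']

theorem roC4 (ω : Cfg) : roC^[4] ω = ω := by
  funext v
  simp [roC, riS]

theorem roS_box (k : ℕ) (hk : k ≤ 4) (R : ℤ) : roS^[k] '' bal 0 R ⊆ bal 0 (R + 1) := by
  rintro _ ⟨⟨a, b⟩, h, rfl⟩
  simp only [bal, sub_zero, nm, Set.mem_ofPred_eq, max_le_iff, abs_le] at h ⊢
  interval_cases k <;> simp [roS] <;> omega

theorem img_iter (k : ℕ) (B : Set (ℤ × ℤ)) : roS '' (roS^[k] '' B) = roS^[k + 1] '' B := by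
  rw [Function.iterate_succ', Set.image_comp]

theorem FFD_ros {r : Fin 4} {B : Set (ℤ × ℤ)} {ω : Cfg} (hf : FFD (Ray r 0) B ω) (k : ℕ) :
    FFD (Ray (adv k r) 0) (roS^[k] '' B) (roC^[k] ω) := by
  induction k with
  | zero =>
    simp only [Function.iterate_zero, id_eq, Set.image_id']
    exact hf
  | succ k ih =>
    have h1 := FFD_ro ih
    rw [img_iter, ← Function.iterate_succ_apply' roC] at h1
    rw [adv_succ]
    exact h1

theorem OvD_ros {r : Fin 4} {B : Set (ℤ × ℤ)} {ω : Cfg} (hf : OvD r 0 B ω) (k : ℕ) :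
    OvD (adv k r) 0 (roS^[k] '' B) (roC^[k] ω) := by
  induction k with
  | zero =>
    simp only [Function.iterate_zero, id_eq, Set.image_id']
    exact hf
  | succ k ih =>
    have h1 := OvD_ro ih
    rw [img_iter, ← Function.iterate_succ_apply' roC] at h1
    rw [adv_succ]
    exact h1

/-! ### the standard map -/

/-- Translation by `z` after the rotation by `k` quarter turns. -/
noncomputable def PS (k : ℕ) (z : ℤ × ℤ) (ω : Cfg) : Cfg := shC z (roC^[k] ω)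

/-- The inverse map. -/
noncomputable def PI (k : ℕ) (z : ℤ × ℤ) (ω : Cfg) : Cfg := roC^[4 - k] (shC (-z) ω)

theorem PI_PS {k : ℕ} (hk : k ≤ 4) (z : ℤ × ℤ) (ω : Cfg) : PI k z (PS k z ω) = ω := by
  unfold PI PS
  rw [shC_neg, ← Function.iterate_add_apply, Nat.sub_add_cancel hk, roC4]

theorem mp_PS (k : ℕ) (z : ℤ × ℤ) : MeasurePreserving (PS k z) μ μ :=
  (mp_shC z).comp (mp_roC.iterate k)

theorem mp_PI (k : ℕ) (z : ℤ × ℤ) : MeasurePreserving (PI k z) μ μ :=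
  (mp_roC.iterate (4 - k)).comp (mp_shC (-z))

theorem bal_sh (z a : ℤ × ℤ) (R : ℤ) : (fun v => v + a) '' bal z R ⊆ bal (z + a) R := by
  rintro _ ⟨v, hv, rfl⟩
  show nm (v + a - (z + a)) ≤ R
  rw [add_sub_add_right_eq_sub]
  exact hv

theorem FFD_PS {k : ℕ} (hk : k ≤ 4) {r : Fin 4} (z : ℤ × ℤ) {R : ℤ} {ω : Cfg}
    (hf : FFD (Ray r 0) (bal 0 R) ω) :
    FFD (Ray (adv k r) z) (bal z (R + 1)) (PS k z ω) := by
  have h1 := FFD_sh (a := z) ((FFD_ros hf k).mono (roS_box k hk R))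
  rw [zero_add] at h1
  refine h1.mono ?_
  have := bal_sh 0 z (R + 1)
  rwa [zero_add] at this

theorem OvD_PS {k : ℕ} (hk : k ≤ 4) {r : Fin 4} (z : ℤ × ℤ) {R : ℤ} {ω : Cfg}
    (hf : OvD r 0 (bal 0 R) ω) : OvD (adv k r) z (bal z (R + 1)) (PS k z ω) := by
  have h1 := OvD_sh (a := z) ((OvD_ros hf k).mono (roS_box k hk R))
  rw [zero_add] at h1
  refine h1.mono ?_
  have := bal_sh 0 z (R + 1)
  rwa [zero_add] at this

theorem FFD_PI {k : ℕ} {r : Fin 4} {z : ℤ × ℤ} {R : ℤ} {ω : Cfg}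
    (hf : FFD (Ray r z) (bal z R) ω) :
    FFD (Ray (adv (4 - k) r) 0) (bal 0 (R + 1)) (PI k z ω) := by
  have h1 := (FFD_sh (a := -z) hf).mono (bal_sh z (-z) R)
  rw [add_neg_cancel] at h1
  exact (FFD_ros h1 (4 - k)).mono (roS_box (4 - k) (by omega) R)

theorem OvD_PI {k : ℕ} {r : Fin 4} {z : ℤ × ℤ} {R : ℤ} {ω : Cfg}
    (hf : OvD r z (bal z R) ω) :
    OvD (adv (4 - k) r) 0 (bal 0 (R + 1)) (PI k z ω) := by
  have h1 := (OvD_sh (a := -z) hf).mono (bal_sh z (-z) R)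
  rw [add_neg_cancel] at h1
  exact (OvD_ros h1 (4 - k)).mono (roS_box (4 - k) (by omega) R)

/-- The number of quarter turns from the direction `0`. -/
theorem turn0 (r : Fin 4) : adv r.val 0 = r ∧ adv (4 - r.val) r = 0 ∧ r.val ≤ 4 := by
  revert r; decide

/-- The number of quarter turns from the direction `2`. -/
theorem turn2 (r : Fin 4) : adv (r + 2).val 2 = r ∧ adv (4 - (r + 2).val) r = 2 ∧
    (r + 2).val ≤ 4 := by
  revert r; decide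

theorem meas_TipD (r : Fin 4) (z : ℤ × ℤ) (R : ℤ) : MeasurableSet (TipD r z R) :=
  (dep_TipD r z R).meas

theorem meas_FlatD (r : Fin 4) (z : ℤ × ℤ) (R : ℤ) : MeasurableSet (FlatD r z R) :=
  (dep_FlatD r z R).meas

theorem TipD_PS {r : Fin 4} {z : ℤ × ℤ} {R : ℤ} {ω : Cfg}
    (h : PS r.val z ω ∈ TipD r z (R + 1)) : ω ∈ TipD 0 0 R := fun hf => h (by
  have := FFD_PS (turn0 r).2.2 z hf
  rwa [(turn0 r).1] at this)

theorem TipD_PI {r : Fin 4} {z : ℤ × ℤ} {R : ℤ} {ω : Cfg}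
    (h : PI r.val z ω ∈ TipD 0 0 (R + 1)) : ω ∈ TipD r z R := fun hf => h (by
  have := FFD_PI (k := r.val) hf
  rwa [(turn0 r).2.1] at this)

theorem FlatD_PS {r : Fin 4} {z : ℤ × ℤ} {R : ℤ} {ω : Cfg}
    (h : PS (r + 2).val z ω ∈ FlatD r z (R + 1)) : ω ∈ FlatD 2 0 R := fun hf => h (by
  have := OvD_PS (turn2 r).2.2 z hf
  rwa [(turn2 r).1] at this)

theorem FlatD_PI {r : Fin 4} {z : ℤ × ℤ} {R : ℤ} {ω : Cfg}
    (h : PI (r + 2).val z ω ∈ FlatD 2 0 (R + 1)) : ω ∈ FlatD r z R := fun hf => h (by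
  have := OvD_PI (k := (r + 2).val) hf
  rwa [(turn2 r).2.1] at this)

theorem tip_le (r : Fin 4) (z : ℤ × ℤ) (R : ℤ) :
    μ.real (TipD r z (R + 1)) ≤ μ.real (TipOk 0 R) := by
  rw [← TipD_zero]
  exact mono_mp (mp_PS r.val z) (meas_TipD _ _ _) fun _ h => TipD_PS h

theorem tip_ge (r : Fin 4) (z : ℤ × ℤ) (R : ℤ) :
    μ.real (TipOk 0 (R + 1)) ≤ μ.real (TipD r z R) := by
  rw [← TipD_zero]
  exact mono_mp (mp_PI r.val z) (meas_TipD _ _ _) fun _ h => TipD_PI h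

theorem flat_le (r : Fin 4) (z : ℤ × ℤ) (R : ℤ) :
    μ.real (FlatD r z (R + 1)) ≤ μ.real (FlatD 2 0 R) :=
  mono_mp (mp_PS (r + 2).val z) (meas_FlatD _ _ _) fun _ h => FlatD_PS h

theorem flat_ge (r : Fin 4) (z : ℤ × ℤ) (R : ℤ) :
    μ.real (FlatD 2 0 (R + 1)) ≤ μ.real (FlatD r z R) :=
  mono_mp (mp_PI (r + 2).val z) (meas_FlatD _ _ _) fun _ h => FlatD_PI h

end Vale.Agent.P167.H436
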