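import Vale.Agent.P167.H436.SymD
import Vale.Agent.P167.H135.FlatArm

/-!
# P167, block START: [SYM]

`sym : H662.SYM`. `flat_arm`: if no strand passes over the site `z` on the right hand side of the line of
direction `r` in the box of radius `R + 1` then `z` is joined by its colour to distance `R` inside
the closed half plane on this side.
-/

namespace Vale.Agent.P167.H436

open Finset MeasureTheory Vale.Agent.P145.FB Vale.Agent.P153 Vale.Agent.P153.Topo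
open Vale.Agent.P167.H662 Vale.Agent.P167.H632 Vale.Agent.P167.H871
open Vale.Agent.P167.H945 (roC roS riS roE FLL Ln cb)
open Vale.Agent.P167.H135 (shC shE mp_shC mp_rl rl fx it_sh it_sh' hdv_sh hdv_sh' sg_sh sg_sh' shE_inj
  shC_neg OA trS shC_ev shC_od)

/-! ### gluing at the standard tip -/

theorem glue0 (Λ : ℕ) : ∃ c : ℝ, 0 < c ∧ ∃ R0 : ℤ, ∀ (R L : ℤ), R0 ≤ R → L + 1 ≤ Λ * R →
    ∀ (F : Finset Pt) (G : Set Mk), Dep F G → IncC true G →
      c * (μ.real (TipOk 0 R) * μ.real G) ≤ μ.real (TipOk 0 L ∩ G) := by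
  obtain ⟨K, hK2, hK⟩ := glue_ge
  obtain ⟨c, hc, h⟩ := hK (Λ + 2)
  have := fair_mu.prob
  refine ⟨c, hc, K, fun R L hR hL F G hG iG => ?_⟩
  have h1 := h 0 R (max R L) hR (le_max_left _ _) (by
    push_cast
    have h3 : (0 : ℤ) ≤ Λ := by positivity
    rcases le_total R L with h2 | h2
    · rw [max_eq_right h2]; nlinarith
    · rw [max_eq_left h2]; nlinarith)
  have hdep : Dep (annS 0 (R / K + 1) R ∪ aq 0 0 (max R L + 1))
      (NCD 0 (R / K + 1) R ∩ HB true 0 (R / K) (max R L + 1)) :=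
    (dep_NCD _ _ _).inter' (dep_HB _ _ _ _)
  have hinc := (inc_NCD 0 (R / K + 1) R).inter (inc_HB true 0 (R / K) (max R L + 1))
  have hrR : R / K + 1 ≤ R := by
    have hr1 : 1 ≤ R / K := (Int.le_ediv_iff_mul_le (by omega)).2 (by omega)
    have hrK : K * (R / K) ≤ R := Int.mul_ediv_self_le (by omega)
    nlinarith
  have hev : Even ((0 : Pt).1 + (0 : Pt).2) := by simp
  have h2 : c * μ.real (SArm 0 R) ≤
      μ.real (SArm 0 R ∩ (NCD 0 (R / K + 1) R ∩ HB true 0 (R / K) (max R L + 1))) := by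
    refine le_trans ?_ (fkg_c (dep_SArm 0 R) hdep (inc_SArm 0 R) hinc)
    rw [mul_comm]
    gcongr
  calc c * (μ.real (TipOk 0 R) * μ.real G) ≤ c * (μ.real (SArm 0 R) * μ.real G) := by
        have : μ.real (TipOk 0 R) ≤ μ.real (SArm 0 R) := measureReal_mono (TipOk_sub_SArm hev R)
        gcongr
    _ = (c * μ.real (SArm 0 R)) * μ.real G := by ring
    _ ≤ μ.real (SArm 0 R ∩ (NCD 0 (R / K + 1) R ∩ HB true 0 (R / K) (max R L + 1))) * μ.real G :=
        by gcongr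
    _ ≤ μ.real ((SArm 0 R ∩ (NCD 0 (R / K + 1) R ∩ HB true 0 (R / K) (max R L + 1))) ∩ G) :=
        fkg_c ((dep_SArm 0 R).inter' hdep) hG ((inc_SArm 0 R).inter hinc) iG
    _ ≤ μ.real (TipOk 0 L ∩ G) := measureReal_mono (Set.inter_subset_inter_left _
        ((glue_sub_TipOk hrR).trans (TipOk_anti (le_max_right _ _))))

/-! ### the map of the colours -/

theorem roC_iter (k : ℕ) (ω : Cfg) (v : ℤ × ℤ) : (roC^[k] ω) v = ω (riS^[k] v) := by
  induction k generalizing v with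
  | zero => rfl
  | succ k ih =>
    rw [Function.iterate_succ_apply' roC]
    show (roC^[k] ω) (riS v) = _
    rw [ih, Function.iterate_succ_apply]

theorem PS_apply (k : ℕ) (z : ℤ × ℤ) (ω : Cfg) (v : ℤ × ℤ) :
    PS k z ω v = fx (!decide (Even (z.1 + z.2))) (ω (riS^[k] (v - z))) := by
  show fx _ ((roC^[k] ω) (v - z)) = _
  rw [roC_iter]

theorem dep_PS {k : ℕ} {z : ℤ × ℤ} {F : Finset Pt} {G : Set Mk} (hG : Dep F G) :
    Dep (F.image fun v => riS^[k] (v - z)) (PS k z ⁻¹' G) := by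
  intro o o' h ho
  refine hG _ _ (fun v hv => ?_) ho
  rw [PS_apply, PS_apply, h _ (mem_image_of_mem _ hv)]

theorem inc_PS {k : ℕ} {z : ℤ × ℤ} {G : Set Mk} (hG : IncC (H662.col z) G) :
    IncC true (PS k z ⁻¹' G) := by
  intro o o' h ho
  refine hG _ _ (fun v hv => ?_) ho
  rw [PS_apply] at hv ⊢
  have h1 := h (riS^[k] (v - z))
  unfold H662.col at hv ⊢
  by_cases hz : Even (z.1 + z.2)
  · simp only [hz, decide_true, Bool.not_true, fx, Bool.false_eq_true, if_false] at hv ⊢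
    exact h1 hv
  · simp only [hz, decide_false, Bool.not_false, fx, if_true] at hv ⊢
    rw [Bool.not_eq_false'] at hv ⊢
    exact h1 hv

theorem real_PS (k : ℕ) (z : ℤ × ℤ) {A : Set Cfg} (hA : MeasurableSet A) :
    μ.real (PS k z ⁻¹' A) = μ.real A := by
  unfold Measure.real
  rw [(mp_PS k z).measure_preimage hA.nullMeasurableSet]

theorem glue (Λ : ℕ) : ∃ c : ℝ, 0 < c ∧ ∃ R0 : ℤ, ∀ (r : Fin 4) (z : Pt) (R L : ℤ), R0 ≤ R →
    L + 1 ≤ Λ * R → ∀ (F : Finset Pt) (G : Set Mk), Dep F G → IncC (H662.col z) G →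
      c * (μ.real (TipD r z R) * μ.real G) ≤ μ.real (TipD r z L ∩ G) := by
  obtain ⟨c, hc, R0, h⟩ := glue0 (2 * Λ + 2)
  have := fair_mu.prob
  refine ⟨c, hc, max (R0 + 1) 2, fun r z R L hR hL F G hG iG => ?_⟩
  have hR1 : R0 ≤ R - 1 := by have := le_max_left (R0 + 1) 2; omega
  have hR2 : 2 ≤ R := (le_max_right _ _).trans hR
  have h1 := h (R - 1) (L + 1) hR1 (by
    push_cast
    have h3 : (0 : ℤ) ≤ Λ := by positivity
    nlinarith) _ _ (dep_PS (k := r.val) (z := z) hG) (inc_PS iG)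
  rw [real_PS _ _ hG.meas] at h1
  have h2 := tip_le r z (R - 1)
  rw [sub_add_cancel] at h2
  calc c * (μ.real (TipD r z R) * μ.real G) ≤ c * (μ.real (TipOk 0 (R - 1)) * μ.real G) := by
        gcongr
    _ ≤ μ.real (TipOk 0 (L + 1) ∩ PS r.val z ⁻¹' G) := h1
    _ ≤ μ.real (PS r.val z ⁻¹' (TipD r z L ∩ G)) := by
        refine measureReal_mono fun ω hω => ⟨?_, hω.2⟩
        refine TipD_PI ?_
        rw [PI_PS (turn0 r).2.2, TipD_zero]
        exact hω.1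
    _ = μ.real (TipD r z L ∩ G) := real_PS _ _ ((meas_TipD _ _ _).inter hG.meas)

/-! ### the flat events -/

theorem mem_line2 {e : Ed} : e ∈ Ray 2 0 ∪ Ray (2 + 2) 0 ↔ ∃ t, e = Ln true (-1) t := by
  constructor
  · rintro (⟨t, -, rfl⟩ | ⟨t, -, rfl⟩)
    · exact ⟨t, rfl⟩
    · exact ⟨t, rfl⟩
  · rintro ⟨t, rfl⟩
    rcases lt_or_ge t 0 with h | h
    · exact Or.inl ⟨t, h, rfl⟩
    · exact Or.inr ⟨t, h, rfl⟩

theorem mem_ray2 {t : ℤ} : Ln true (-1) t ∈ Ray 2 0 ↔ t < 0 := by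
  constructor
  · rintro ⟨x, hx, h⟩
    simp only [Ln, if_true, Sum.inr.injEq, Prod.mk.injEq] at h
    rw [h.1]
    exact hx
  · intro h
    exact ⟨t, h, rfl⟩

/-- The flat event of the direction `2` at the origin. -/
theorem OvD_two (B : Set (ℤ × ℤ)) (ω : Cfg) : OvD 2 0 B ω ↔ FLL true (-1) 0 1 B ω := by
  constructor
  · rintro ⟨e, n, h1, h2, h3, h4, h5, h6, h7, h8⟩
    rw [mem_line2] at h2 h3
    obtain ⟨t, rfl⟩ := h2
    obtain ⟨t', ht'⟩ := h3
    rw [ht'] at h7 h8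
    rw [mem_ray2, mem_ray2] at h8
    refine ⟨t, t', n, h1, ht', fun i hi hin s hs => h4 i hi hin (mem_line2.2 ⟨s, hs⟩), h5, h6, h7,
      by omega⟩
  · rintro ⟨t, t', n, h1, h2, h3, h4, h5, h6, h7⟩
    refine ⟨_, n, h1, mem_line2.2 ⟨t, rfl⟩, mem_line2.2 ⟨t', h2⟩, fun i hi hin hs => ?_, h4, h5, ?_,
      ?_⟩
    · obtain ⟨s, hs⟩ := mem_line2.1 hs
      exact h3 i hi hin s hs
    · rw [h2]; exact h6
    · rw [h2, mem_ray2, mem_ray2]; omega

theorem cb_bal (R : ℤ) : cb R ⊆ bal 0 R := by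
  intro v hv
  simp only [cb, bal, Set.mem_ofPred_eq, sub_zero, nm, max_le_iff, abs_le] at hv ⊢
  omega

theorem bal_cb (R : ℤ) : bal 0 R ⊆ cb (R + 1) := by
  intro v hv
  simp only [cb, bal, Set.mem_ofPred_eq, sub_zero, nm, max_le_iff, abs_le] at hv ⊢
  omega

theorem FlatD_sub (R : ℤ) : FlatD 2 0 R ⊆ {ω | ¬ FLL true (-1) 0 1 (cb R) ω} :=
  fun ω h hf => h ((OvD_two _ ω).2 (hf.mono (cb_bal R)))

theorem sub_FlatD (R : ℤ) : {ω | ¬ FLL true (-1) 0 1 (cb (R + 1)) ω} ⊆ FlatD 2 0 R :=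
  fun ω h hf => h (((OvD_two _ ω).1 hf).mono (bal_cb R))

theorem flat_scale (Λ : ℕ) : ∃ c : ℝ, 0 < c ∧ ∃ R0 : ℤ, ∀ R L : ℤ, R0 ≤ R → L + 1 ≤ Λ * R →
    c * μ.real (FlatD 2 0 R) ≤ μ.real (FlatD 2 0 L) := by
  obtain ⟨C, hC, h⟩ := H135.flat_ge (Λ + 1)
  have := fair_mu.prob
  refine ⟨1 / C, by positivity, 1, fun R L hR hL => ?_⟩
  have h1 := h R (max L 0 + 1) hR (by omega) (by
    push_cast
    have h3 : (0 : ℤ) ≤ Λ := by positivity
    rcases le_total L 0 with h2 | h2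
    · rw [max_eq_right h2]; nlinarith
    · rw [max_eq_left h2]; nlinarith)
  rw [div_mul_eq_mul_div, one_mul, div_le_iff₀ hC]
  calc μ.real (FlatD 2 0 R) ≤ _ := measureReal_mono (FlatD_sub R)
    _ ≤ _ := h1
    _ ≤ C * μ.real (FlatD 2 0 (max L 0)) := by
        refine mul_le_mul_of_nonneg_left (measureReal_mono (sub_FlatD _)) hC.le
    _ ≤ C * μ.real (FlatD 2 0 L) :=
        mul_le_mul_of_nonneg_left (measureReal_mono (FlatD_anti (le_max_left _ _))) hC.le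
    _ = _ := mul_comm _ _

/-- **[SYM]** -/
theorem sym : SYM where
  tip_le := tip_le
  tip_ge := tip_ge
  flat_le := flat_le
  flat_ge := flat_ge
  glue := glue
  flat_scale := flat_scale

/-! ### the half plane arm of a flat point -/

/-- The closed half plane on the right hand side of the line of direction `r` through `z`. -/
def Hs (r : Fin 4) (z : Pt) : Set Pt :=
  match r with
  | 0 => {s | s.2 ≤ z.2}
  | 1 => {s | z.1 ≤ s.1}
  | 2 => {s | z.2 ≤ s.2}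
  | 3 => {s | s.1 ≤ z.1}

theorem f4 {P : Fin 4 → Prop} (h0 : P 0) (h1 : P 1) (h2 : P 2) (h3 : P 3) (r : Fin 4) : P r := by
  fin_cases r
  · exact h0
  · exact h1
  · exact h2
  · exact h3

/-- Rotation of the sites about the site `0`. -/
def roZ (s : Pt) : Pt := (-s.2, s.1)

theorem Hs_ro {r : Fin 4} {s : Pt} (h : s ∈ Hs r 0) : roZ s ∈ Hs (r + 1) 0 := by
  revert h
  refine f4 (P := fun r => s ∈ Hs r 0 → roZ s ∈ Hs (r + 1) 0) ?_ ?_ ?_ ?_ r
  · intro h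
    have h' : s.2 ≤ 0 := h
    show (0 : ℤ) ≤ -s.2
    omega
  · intro h
    exact h
  · intro h
    have h' : 0 ≤ s.2 := h
    show -s.2 ≤ (0 : ℤ)
    omega
  · intro h
    exact h

theorem nm_roZ (s : Pt) : nm (roZ s) = nm s := by
  simp only [nm, roZ, abs_neg, max_comm]

theorem pconn_ro {c : Bool} {ω : Cfg} {r : Fin 4} {R : ℤ} {u v : Pt}
    (h : PConn (cs c ω) (Hs r 0 ∩ bl 0 R) u v) :
    PConn (cs c (roC ω)) (Hs (r + 1) 0 ∩ bl 0 R) (roZ u) (roZ v) := by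
  have hm : ∀ s : Pt, s ∈ Hs r 0 ∩ bl 0 R → roZ s ∈ Hs (r + 1) 0 ∩ bl 0 R := by
    rintro s ⟨h1, h2⟩
    refine ⟨Hs_ro h1, ?_⟩
    have h2' : nm (s - 0) ≤ R := h2
    show nm (roZ s - 0) ≤ R
    rw [sub_zero] at h2' ⊢
    rwa [nm_roZ]
  obtain ⟨h0, h1⟩ := h
  refine ⟨hm _ h0, ?_⟩
  refine h1.lift roZ (fun a b hab => ?_)
  obtain ⟨⟨h2, h3, h4⟩, h5⟩ := hab
  refine ⟨⟨?_, ?_, ?_⟩, hm _ h5⟩
  · simp only [roZ]; omega
  · simp only [roZ]; omega
  · show roC ω _ = c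
    have h6 : ω (min a.1 b.1, min a.2 b.2) = c := h4
    rw [← h6]
    unfold roC riS roZ
    congr 1
    ext
    · rfl
    · simp only; omega

theorem pconn_ros {c : Bool} {ω : Cfg} {r : Fin 4} {R : ℤ} {u v : Pt}
    (h : PConn (cs c ω) (Hs r 0 ∩ bl 0 R) u v) (k : ℕ) :
    PConn (cs c (roC^[k] ω)) (Hs (adv k r) 0 ∩ bl 0 R) (roZ^[k] u) (roZ^[k] v) := by
  induction k with
  | zero => exact h
  | succ k ih =>
    have h1 := pconn_ro ih
    rw [← Function.iterate_succ_apply' roC, ← Function.iterate_succ_apply' roZ,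
      ← Function.iterate_succ_apply' roZ] at h1
    rw [adv_succ]
    exact h1

theorem Hs_sh {r : Fin 4} {s z : Pt} (h : s ∈ Hs r 0) : s + z ∈ Hs r z := by
  revert h
  refine f4 (P := fun r => s ∈ Hs r 0 → s + z ∈ Hs r z) ?_ ?_ ?_ ?_ r
  · intro h
    have h' : s.2 ≤ 0 := h
    show s.2 + z.2 ≤ z.2
    omega
  · intro h
    have h' : 0 ≤ s.1 := h
    show z.1 ≤ s.1 + z.1
    omega
  · intro h
    have h' : 0 ≤ s.2 := h
    show z.2 ≤ s.2 + z.2
    omega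
  · intro h
    have h' : s.1 ≤ 0 := h
    show s.1 + z.1 ≤ z.1
    omega

theorem shC_col (z : Pt) (ω : Cfg) (v : Pt) (h : ω v = true) : shC z ω (v + z) = H662.col z := by
  unfold H662.col
  by_cases hz : Even (z.1 + z.2)
  · rw [shC_ev hz, h]; simp [hz]
  · rw [shC_od hz, h]; simp [hz]

theorem pconn_sh {ω : Cfg} {r : Fin 4} {R : ℤ} {u v : Pt} (z : Pt)
    (h : PConn (cs true ω) (Hs r 0 ∩ bl 0 R) u v) :
    PConn (cs (H662.col z) (shC z ω)) (Hs r z ∩ bl z R) (u + z) (v + z) := by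
  have hm : ∀ s : Pt, s ∈ Hs r 0 ∩ bl 0 R → s + z ∈ Hs r z ∩ bl z R := by
    rintro s ⟨h1, h2⟩
    refine ⟨Hs_sh h1, ?_⟩
    have h2' : nm (s - 0) ≤ R := h2
    show nm (s + z - z) ≤ R
    rwa [add_sub_cancel_right, ← sub_zero s]
  obtain ⟨h0, h1⟩ := h
  refine ⟨hm _ h0, ?_⟩
  refine h1.lift (fun s => s + z) (fun a b hab => ?_)
  obtain ⟨⟨h2, h3, h4⟩, h5⟩ := hab
  refine ⟨⟨?_, ?_, ?_⟩, hm _ h5⟩
  · simp only [Prod.fst_add]; omega
  · simp only [Prod.snd_add]; omega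
  · show shC z ω _ = H662.col z
    rw [← shC_col z ω _ h4]
    congr 1
    ext
    · simp only [Prod.fst_add]; omega
    · simp only [Prod.snd_add]; omega

theorem roZ_zero (k : ℕ) : roZ^[k] 0 = 0 := by
  induction k with
  | zero => rfl
  | succ k ih => rw [Function.iterate_succ_apply', ih]; rfl

theorem nm_roZs (k : ℕ) (s : Pt) : nm (roZ^[k] s) = nm s := by
  induction k with
  | zero => rfl
  | succ k ih => rw [Function.iterate_succ_apply', nm_roZ, ih]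

/-- The half plane arm of the colour of `z` on the right hand side of the line of direction `r`. -/
def HArm (r : Fin 4) (z : Pt) (R : ℤ) : Set Mk :=
  {ω | ∃ y : Pt, nm (y - z) = R ∧ PConn (cs (H662.col z) ω) (Hs r z ∩ bl z R) z y}

theorem PS_PI {k : ℕ} (hk : k ≤ 4) (z : ℤ × ℤ) (ω : Cfg) : PS k z (PI k z ω) = ω := by
  unfold PI PS
  rw [← Function.iterate_add_apply, Nat.add_sub_cancel' hk, roC4]
  have := shC_neg (-z) ω
  rwa [neg_neg] at this

/-- **No strand over a flat point: half plane arm.** -/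
theorem flat_arm (r : Fin 4) (z : Pt) {R : ℤ} (hR : 1 ≤ R) : FlatD r z (R + 1) ⊆ HArm r z R := by
  intro ω' h
  obtain ⟨ω, hω⟩ : ∃ ω, ω = PI (r + 2).val z ω' := ⟨_, rfl⟩
  have hω' : PS (r + 2).val z ω = ω' := by rw [hω, PS_PI (turn2 r).2.2]
  rw [← hω'] at h ⊢
  have h1 : ω ∈ OA true true (0, 0) R := H135.noFLL_sub_OA hR (FlatD_sub R (FlatD_PS h))
  obtain ⟨y, hy, hc⟩ := h1
  have hc' : PConn (cs true ω) (Hs 2 0 ∩ bl 0 R) 0 y := hc.mono subset_rfl (by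
    rintro s ⟨k1, k2⟩
    exact ⟨k1, k2⟩)
  have h2 := pconn_sh z (pconn_ros hc' (r + 2).val)
  rw [(turn2 r).1, roZ_zero, zero_add] at h2
  refine ⟨_, ?_, h2⟩
  have hy' : nm (y - 0) = R := hy
  rw [add_sub_cancel_right, nm_roZs]
  rwa [sub_zero] at hy'

end Vale.Agent.P167.H436
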